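import Mathlib

/-!
# The Hermitian trick

A series `Ω = ∑ A I t^I` of self-adjoint operators with `[Ω, t_i ∂_i Ω] = 0` has commuting
coefficients, and its pieces are the joint eigenspaces of the coefficients.
-/

namespace Vale.Agent.P287Q.Alg

open Module Finset.HasAntidiagonal

/-! ### Commuting coefficients -/

section ring

variable {𝒜 : Type*} [Ring 𝒜]

/-- `ad a` has no nilpotent part of order two. -/
def AdS (a : 𝒜) : Prop := ∀ x, Commute a (a * x - x * a) → Commute a x

theorem her_comm_of_order {σ : Type*} [DecidableEq σ] (k : Type*) [Field k] [CharZero k]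
    [Algebra k 𝒜] (m : MonomialOrder σ) (A : (σ →₀ ℕ) → 𝒜) (hA : ∀ I, AdS (A I))
    (h : ∀ (i : σ) (K : σ →₀ ℕ),
      ∑ p ∈ antidiagonal K, (p.2 i : k) • (A p.1 * A p.2 - A p.2 * A p.1) = 0)
    (I J : σ →₀ ℕ) : Commute (A I) (A J) := by
  have wf : WellFounded fun I J : σ →₀ ℕ => m.toSyn I < m.toSyn J :=
    InvImage.wf m.toSyn wellFounded_lt
  induction I using wf.induction generalizing J with
  | _ I ihI =>
  induction J using wf.induction with
  | _ J ihJ =>
  by_cases hIJ : I = J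
  · subst hIJ; exact Commute.refl _
  obtain ⟨i, hi⟩ : ∃ i, I i ≠ J i := by
    by_contra hc
    push Not at hc
    exact hIJ (Finsupp.ext hc)
  refine hA I _ ?_
  set C := A I * A J - A J * A I with hC
  -- the linear map `ad (A I)`
  let ad : 𝒜 →ₗ[k] 𝒜 := LinearMap.mulLeft k (A I) - LinearMap.mulRight k (A I)
  have had : ∀ x, ad x = A I * x - x * A I := fun x => rfl
  have h1 := congrArg ad (h i (I + J))
  rw [map_sum, map_zero] at h1
  have hmem1 : (I, J) ∈ antidiagonal (I + J) := by simp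
  have hmem2 : (J, I) ∈ antidiagonal (I + J) := by simp [add_comm]
  have hne : (I, J) ≠ (J, I) := fun e => hIJ (Prod.ext_iff.1 e).1
  rw [Finset.sum_eq_add (I, J) (J, I) hne _ (fun hn => absurd hmem1 hn)
    (fun hn => absurd hmem2 hn)] at h1
  · have h2 : ((J i : k) - (I i : k)) • ad C = 0 := by
      rw [← h1, map_smul, map_smul, sub_smul, ← neg_sub (A I * A J), map_neg, smul_neg,
        sub_eq_add_neg]
    have h3 : ((J i : k) - (I i : k)) ≠ 0 := sub_ne_zero.2 (by exact_mod_cast hi.symm)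
    have h4 := (smul_eq_zero.1 h2).resolve_left h3
    rw [had] at h4
    exact sub_eq_zero.1 h4
  · rintro ⟨P, Q⟩ hp ⟨hp1, hp2⟩
    rw [mem_antidiagonal] at hp
    dsimp only at hp ⊢
    have hs : m.toSyn P + m.toSyn Q = m.toSyn I + m.toSyn J := by rw [← map_add, hp, map_add]
    rw [map_smul]
    suffices ad (A P * A Q - A Q * A P) = 0 by rw [this, smul_zero]
    rcases lt_trichotomy (m.toSyn P) (m.toSyn I) with hP | hP | hP
    · rw [(ihI P hP Q).eq, sub_self, map_zero]
    · have e1 : P = I := m.toSyn.injective hP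
      subst e1
      exact absurd (by rw [add_left_cancel hp]) hp1
    rcases lt_trichotomy (m.toSyn Q) (m.toSyn I) with hQ | hQ | hQ
    · rw [(ihI Q hQ P).eq, sub_self, map_zero]
    · have e1 : Q = I := m.toSyn.injective hQ
      subst e1
      rw [add_comm Q J] at hp
      exact absurd (by rw [add_right_cancel hp]) hp2
    have hQJ : m.toSyn Q < m.toSyn J := by
      by_contra hc
      push Not at hc
      exact absurd hs (add_lt_add_of_lt_of_le hP hc).ne'
    have hPJ : m.toSyn P < m.toSyn J := by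
      by_contra hc
      push Not at hc
      rw [add_comm (m.toSyn P)] at hs
      exact absurd hs (add_lt_add_of_lt_of_le hQ hc).ne'
    have c1 := ihJ P hPJ
    have c2 := ihJ Q hQJ
    rw [had]
    exact sub_eq_zero.2 ((c1.mul_right c2).sub_right (c2.mul_right c1)).eq

/-- The coefficients of `Ω` commute as soon as `[Ω, t_i ∂_i Ω] = 0` for all `i` and each
coefficient is `ad`-semisimple. -/
theorem her_comm {σ : Type*} [DecidableEq σ] (k : Type*) [Field k] [CharZero k]
    [Algebra k 𝒜] (A : (σ →₀ ℕ) → 𝒜) (hA : ∀ I, AdS (A I))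
    (h : ∀ (i : σ) (K : σ →₀ ℕ),
      ∑ p ∈ antidiagonal K, (p.2 i : k) • (A p.1 * A p.2 - A p.2 * A p.1) = 0)
    (I J : σ →₀ ℕ) : Commute (A I) (A J) := by
  obtain ⟨lo, hlo⟩ := exists_wellFoundedGT σ
  exact her_comm_of_order k (@MonomialOrder.lex σ lo hlo) A hA h I J

/-- Joint eigen-projectors `π γ` of a family `A`, with characters `χ γ`. -/
structure Jnt {k : Type*} [CommRing k] [Algebra k 𝒜] {ι Γ : Type*} [Fintype Γ] (A : ι → 𝒜)
    (π : Γ → 𝒜) (χ : Γ → ι → k) : Prop where
  coi : CompleteOrthogonalIdempotents π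
  ne : ∀ γ, π γ ≠ 0
  inj : Function.Injective χ
  left : ∀ γ i, A i * π γ = χ γ i • π γ
  right : ∀ γ i, π γ * A i = χ γ i • π γ

namespace Jnt

variable {k : Type*} [CommRing k] [Algebra k 𝒜] {ι Γ : Type*} [Fintype Γ] {A : ι → 𝒜}
  {π : Γ → 𝒜} {χ : Γ → ι → k}

theorem eq_sum (h : Jnt A π χ) (i : ι) : A i = ∑ γ, χ γ i • π γ := by
  conv_lhs => rw [← mul_one (A i), ← h.coi.complete, Finset.mul_sum]
  exact Finset.sum_congr rfl fun γ _ => h.left γ i

/-- Every element of the generated algebra is a scalar on each piece. -/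
theorem adjoin (h : Jnt A π χ) {x : 𝒜} (hx : x ∈ Algebra.adjoin k (Set.range A)) :
    ∃ c : Γ → k, ∀ γ, x * π γ = c γ • π γ ∧ π γ * x = c γ • π γ := by
  induction hx using Algebra.adjoin_induction with
  | mem x hx =>
    obtain ⟨i, rfl⟩ := hx
    exact ⟨fun γ => χ γ i, fun γ => ⟨h.left γ i, h.right γ i⟩⟩
  | algebraMap r =>
    refine ⟨fun _ => r, fun γ => ⟨(Algebra.smul_def _ _).symm, ?_⟩⟩
    rw [← Algebra.commutes, Algebra.smul_def]
  | add x y _ _ hx hy =>
    obtain ⟨c, hc⟩ := hx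
    obtain ⟨d, hd⟩ := hy
    exact ⟨fun γ => c γ + d γ, fun γ =>
      ⟨by rw [add_mul, (hc γ).1, (hd γ).1, add_smul], by rw [mul_add, (hc γ).2, (hd γ).2, add_smul]⟩⟩
  | mul x y _ _ hx hy =>
    obtain ⟨c, hc⟩ := hx
    obtain ⟨d, hd⟩ := hy
    refine ⟨fun γ => c γ * d γ, fun γ => ⟨?_, ?_⟩⟩
    · rw [mul_assoc, (hd γ).1, mul_smul_comm, (hc γ).1, smul_smul, mul_comm]
    · rw [← mul_assoc, (hc γ).2, smul_mul_assoc, (hd γ).2, smul_smul]

theorem map {ℬ : Type*} [Ring ℬ] [Algebra k ℬ] (h : Jnt A π χ) (e : 𝒜 →ₐ[k] ℬ)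
    (he : Function.Injective e) : Jnt (fun i => e (A i)) (fun γ => e (π γ)) χ where
  coi := h.coi.map e.toRingHom
  ne γ := fun h0 => h.ne γ (he (by rw [map_zero]; exact h0))
  inj := h.inj
  left γ i := by rw [← map_mul, h.left, map_smul]
  right γ i := by rw [← map_mul, h.right, map_smul]

end Jnt

end ring

/-! ### Diagonalisable operators -/

section lin

variable {k : Type*} [Field k] {V : Type*} [AddCommGroup V] [Module k V]

/-- No Jordan block of size two. -/
def Dgz (A : End k V) : Prop := ∀ (a : k) (v : V), A (A v - a • v) = a • (A v - a • v) → A v = a • v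

theorem Dgz.mem_iff {A : End k V} (h : Dgz A) (a : k) (v : V) :
    v ∈ A.maxGenEigenspace a ↔ A v = a • v := by
  rw [Module.End.mem_maxGenEigenspace]
  constructor
  · rintro ⟨n, hn⟩
    induction n generalizing v with
    | zero =>
      have : v = 0 := by simpa using hn
      simp [this]
    | succ n ih =>
      rw [pow_succ, Module.End.mul_apply] at hn
      exact h a v (by simpa using ih _ hn)
  · intro hv
    exact ⟨1, by simp [hv]⟩

theorem Dgz.adS [IsAlgClosed k] [FiniteDimensional k V] {A : End k V} (h : Dgz A) : AdS A := by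
  intro X hX
  have key : ∀ v ∈ ⨆ a, A.maxGenEigenspace a, A (X v) = X (A v) := by
    intro v hv
    induction hv using Submodule.iSup_induction' with
    | mem a v hv =>
      rw [h.mem_iff] at hv
      have h1 := congrArg (fun f : End k V => f v) hX.eq
      simp only [Module.End.mul_apply, LinearMap.sub_apply, hv, map_smul] at h1
      rw [hv, map_smul]
      exact h a _ h1
    | zero => simp
    | add v w _ _ hv hw => simp only [map_add, hv, hw]
  ext v
  exact key v (by rw [Module.End.iSup_maxGenEigenspace_eq_top]; trivial)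

/-- An operator that is self-adjoint for an anisotropic sesquilinear form is diagonalisable. -/
theorem dgz_of_form {s : k →+* k} (b : V →ₛₗ[s] V →ₗ[k] k) (hb : ∀ v, b v v = 0 → v = 0)
    {A : End k V} (hA : ∀ v w, b (A v) w = b v (A w)) : Dgz A := by
  intro a v hv
  set w := A v - a • v with hw
  refine sub_eq_zero.1 (hb w ?_)
  by_contra hne
  have h1 : s a = a := by
    have h2 := hA w w
    rw [hv, map_smulₛₗ, LinearMap.smul_apply, map_smul, smul_eq_mul, smul_eq_mul] at h2
    exact mul_right_cancel₀ hne h2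
  apply hne
  have h3 : b (A v - a • v) w = b v (A w) - s a • b v w := by
    rw [map_sub b, map_smulₛₗ b, LinearMap.sub_apply, LinearMap.smul_apply, hA]
  rw [← hw] at h3
  rw [h3, hv, map_smul, h1, sub_self]

/-- Commuting diagonalisable operators have joint eigen-projectors. -/
theorem exists_jnt [IsAlgClosed k] [FiniteDimensional k V] {ι : Type*} (A : ι → End k V)
    (hA : ∀ i, Dgz (A i)) (hc : ∀ i j, Commute (A i) (A j)) :
    ∃ (m : ℕ) (π : Fin m → End k V) (χ : Fin m → ι → k), Jnt A π χ := by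
  classical
  let N : (ι → k) → Submodule k V := fun χ => ⨅ i, (A i).maxGenEigenspace (χ i)
  have hind : iSupIndep N := Module.End.independent_iInf_maxGenEigenspace_of_forall_mapsTo A
    fun i j φ => Module.End.mapsTo_maxGenEigenspace_of_comm (hc j i) φ
  have htop : ⨆ χ, N χ = ⊤ :=
    Module.End.iSup_iInf_maxGenEigenspace_eq_top_of_iSup_maxGenEigenspace_eq_top_of_commute A
      (fun i j _ => hc i j) fun i => Module.End.iSup_maxGenEigenspace_eq_top _
  have hfin : {χ | N χ ≠ ⊥}.Finite := WellFoundedGT.finite_ne_bot_of_iSupIndep hind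
  have hint : DirectSum.IsInternal fun χ : {χ // N χ ≠ ⊥} => N χ :=
    DirectSum.isInternal_ne_bot_iff.2
      (DirectSum.isInternal_submodule_of_iSupIndep_of_iSup_eq_top hind htop)
  have : Finite {χ // N χ ≠ ⊥} := hfin
  obtain ⟨m, ⟨e⟩⟩ := Finite.exists_equiv_fin {χ // N χ ≠ ⊥}
  let E := (LinearEquiv.ofBijective (DirectSum.coeLinearMap fun χ : {χ // N χ ≠ ⊥} => N χ) hint).symm
  let p : {χ // N χ ≠ ⊥} → End k V := fun χ =>
    (N χ).subtype ∘ₗ DirectSum.component k _ (fun χ : {χ // N χ ≠ ⊥} => N χ) χ ∘ₗ E.toLinearMap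
  have hp : ∀ χ v, p χ v = (E v χ : V) := fun _ _ => rfl
  have hsame : ∀ (χ : {χ // N χ ≠ ⊥}) v, v ∈ N χ → p χ v = v := fun χ v hv => by
    rw [hp, hint.ofBijective_coeLinearMap_of_mem hv]
  have hdiff : ∀ (χ ψ : {χ // N χ ≠ ⊥}) v, χ ≠ ψ → v ∈ N χ → p ψ v = 0 := fun χ ψ v hne hv => by
    rw [hp, hint.ofBijective_coeLinearMap_of_mem_ne hne hv]; rfl
  have hmem : ∀ (χ : {χ // N χ ≠ ⊥}) v, p χ v ∈ N χ := fun χ v => (E v χ).2
  have heig : ∀ (χ : ι → k) v, v ∈ N χ → ∀ i, A i v = χ i • v := fun χ v hv i =>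
    ((hA i).mem_iff _ _).1 ((Submodule.mem_iInf _).1 hv i)
  have hext : ∀ f g : End k V, (∀ (χ : {χ // N χ ≠ ⊥}) v, v ∈ N χ → f v = g v) → f = g := by
    intro f g hfg
    ext v
    have hv : v ∈ ⨆ χ : {χ // N χ ≠ ⊥}, N χ := by rw [hint.submodule_iSup_eq_top]; trivial
    induction hv using Submodule.iSup_induction' with
    | mem χ v hv => exact hfg χ v hv
    | zero => simp
    | add v w _ _ hv hw => simp only [map_add, hv, hw]
  refine ⟨m, fun j => p (e.symm j), fun j => (e.symm j).1, ?_, ?_, ?_, ?_, ?_⟩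
  · refine CompleteOrthogonalIdempotents.iff_ortho_complete.2 ⟨?_, ?_⟩
    · intro i j hij
      ext v
      exact hdiff _ _ _ (fun h => hij (e.symm.injective h).symm) (hmem _ v)
    · refine hext _ _ fun χ v hv => ?_
      rw [LinearMap.sum_apply, Finset.sum_eq_single (e χ)]
      · rw [e.symm_apply_apply]; exact hsame χ v hv
      · intro j _ hj
        exact hdiff χ _ v (fun h => hj (by rw [h, e.apply_symm_apply])) hv
      · intro h; exact absurd (Finset.mem_univ _) h
  · intro j h0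
    obtain ⟨v, hv, hv0⟩ := (Submodule.ne_bot_iff _).1 (e.symm j).2
    apply hv0
    rw [← hsame _ v hv, h0]; rfl
  · intro i j hij
    exact e.symm.injective (Subtype.ext hij)
  · intro j i
    ext v
    exact heig _ _ (hmem _ v) i
  · intro j i
    refine hext _ _ fun χ v hv => ?_
    rw [Module.End.mul_apply, heig _ _ hv, map_smul, LinearMap.smul_apply]
    by_cases h : χ = e.symm j
    · rw [h]
    · rw [hdiff χ _ v h hv, smul_zero, smul_zero]

/-- The Hermitian trick. -/
theorem her_jnt [IsAlgClosed k] [CharZero k] [FiniteDimensional k V] {s : k →+* k}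
    (b : V →ₛₗ[s] V →ₗ[k] k) (hb : ∀ v, b v v = 0 → v = 0) {σ : Type*} [DecidableEq σ]
    (A : (σ →₀ ℕ) → End k V) (hA : ∀ I v w, b (A I v) w = b v (A I w))
    (h : ∀ (i : σ) (K : σ →₀ ℕ),
      ∑ p ∈ antidiagonal K, (p.2 i : k) • (A p.1 * A p.2 - A p.2 * A p.1) = 0) :
    (∀ I J, Commute (A I) (A J)) ∧
      ∃ (m : ℕ) (π : Fin m → End k V) (χ : Fin m → (σ →₀ ℕ) → k), Jnt A π χ := by
  have hd : ∀ I, Dgz (A I) := fun I => dgz_of_form b hb (hA I)
  have hc := her_comm k A (fun I => (hd I).adS) h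
  exact ⟨hc, exists_jnt A hd hc⟩

end lin

end Vale.Agent.P287Q.Alg
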