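import Vale.Agent.P287Q.Lz.Ser
import Vale.Agent.P287Q.Alg.Her

/-! The Hermitian trick for operators indexed by degrees and multisets of insertions. -/

namespace Vale.Agent.P287Q.Alg

open Finset.HasAntidiagonal Lz

section ring

variable (k : Type) [Field k] [CharZero k] {𝒜 R X : Type} [Ring 𝒜] [Algebra k 𝒜] [DecidableEq R]

/-- the generating series of a family of operators -/
noncomputable def serN (T : (R →₀ ℕ) → Multiset X → 𝒜) : MvPowerSeries (R ⊕ X) 𝒜 :=
  fun m => (fc (exm m) : k)⁻¹ • T (dgm m) (Finsupp.toMultiset (exm m))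

omit [CharZero k] [DecidableEq R] in
theorem coeff_serN (T : (R →₀ ℕ) → Multiset X → 𝒜) (m : R ⊕ X →₀ ℕ) :
    MvPowerSeries.coeff m (serN k T) =
      (fc (exm m) : k)⁻¹ • T (dgm m) (Finsupp.toMultiset (exm m)) := rfl

theorem serN_mul (S T : (R →₀ ℕ) → Multiset X → 𝒜) :
    serN k S * serN k T = serN k (cv fun d₁ t₁ d₂ t₂ => S d₁ t₁ * T d₂ t₂) := by
  classical
  ext m
  rw [MvPowerSeries.coeff_mul, coeff_serN, cv, Finset.smul_sum]
  refine Eq.trans ?_ ((sum_antidiagonal_sum m fun u v =>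
    ((fc u.2 : k)⁻¹ * (fc v.2 : k)⁻¹) • (S u.1 (Finsupp.toMultiset u.2) *
      T v.1 (Finsupp.toMultiset v.2))).trans ?_)
  · refine Finset.sum_congr rfl fun p _ => ?_
    rw [coeff_serN, coeff_serN, smul_mul_smul_comm]
    rfl
  · exact Finset.sum_congr rfl fun p _ =>
      (sum_antidiagonal k (fun s t => S p.1 s * T p.2 t) (exm m)).symm

omit [DecidableEq R] in
theorem coeff_X_mul_serN (T : (R →₀ ℕ) → Multiset X → 𝒜) (x : X) (m : R ⊕ X →₀ ℕ) :
    MvPowerSeries.coeff m (MvPowerSeries.X (.inr x) * serN k fun d t => T d (x ::ₘ t)) =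
      (m (.inr x) : k) • MvPowerSeries.coeff m (serN k T) := by
  classical
  rw [MvPowerSeries.X_def, MvPowerSeries.coeff_monomial_mul]
  split_ifs with h
  · obtain ⟨n, rfl⟩ := exists_add_of_le h
    rw [add_tsub_cancel_left, one_mul, add_comm _ n]
    have h1 : dgm (n + Finsupp.single (.inr x) 1) = dgm n := by
      ext r; simp [dgm_apply]
    have h2 : exm (n + Finsupp.single (.inr x) 1) = exm n + Finsupp.single x 1 := by
      ext b; simp [exm_apply, Finsupp.single_apply]
    rw [coeff_serN, coeff_serN, h1, h2, fc_add_single, Finsupp.toMultiset_add,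
      Finsupp.toMultiset_single, one_smul, add_comm (Finsupp.toMultiset (exm n)),
      Multiset.singleton_add, smul_smul, exm_apply, Finsupp.add_apply, Finsupp.single_eq_same]
    congr 1
    have h3 : ((n (.inr x) : k) + 1) ≠ 0 := Nat.cast_add_one_ne_zero _
    have h4 : (fc (exm n) : k) ≠ 0 := Nat.cast_ne_zero.2 (fc_ne _)
    push_cast
    field_simp
  · rw [Finsupp.single_le_iff, not_le, Nat.lt_one_iff] at h
    rw [h, Nat.cast_zero, zero_smul]

/-- WDVV, the divisor equation and the degree axiom force `ad`-semisimple operators to commute. -/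
theorem herL_comm (T : (R →₀ ℕ) → Multiset X → 𝒜) (hT : ∀ d t, AdS (T d t)) (L : R → X)
    (c : R → k) (w : X → k)
    (hW : ∀ x y d t, cv (fun d₁ t₁ d₂ t₂ => T d₁ (x ::ₘ t₁) * T d₂ (y ::ₘ t₂)) d t =
      cv (fun d₁ t₁ d₂ t₂ => T d₁ (y ::ₘ t₁) * T d₂ (x ::ₘ t₂)) d t)
    (hD : ∀ r d t, T d (L r ::ₘ t) = (d r : k) • T d t)
    (hE : ∀ d t, T d t ≠ 0 → (d.sum fun r n => c r * n) + (t.map w).sum = 1)
    (d : R →₀ ℕ) (t : Multiset X) (d' : R →₀ ℕ) (t' : Multiset X) :
    Commute (T d t) (T d' t') := by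
  classical
  let A : (R ⊕ X →₀ ℕ) → 𝒜 := fun m => MvPowerSeries.coeff m (serN k T)
  have hf : ∀ m : R ⊕ X →₀ ℕ, (fc (exm m) : k)⁻¹ ≠ 0 := fun m =>
    inv_ne_zero (Nat.cast_ne_zero.2 (fc_ne _))
  have hA : ∀ m, AdS (A m) := by
    intro m x hx
    have h1 : Commute (T (dgm m) (Finsupp.toMultiset (exm m))) x := by
      refine hT _ _ x ?_
      simp only [A, coeff_serN, smul_mul_assoc, mul_smul_comm, ← smul_sub] at hx
      exact (Commute.smul_right_iff₀ (hf m)).1 ((Commute.smul_left_iff₀ (hf m)).1 hx)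
    exact h1.smul_left _
  -- the Euler derivatives
  let D : R ⊕ X → MvPowerSeries (R ⊕ X) 𝒜 := fun u =>
    serN k fun d t => T d (Sum.elim L id u ::ₘ t)
  let z : R ⊕ X → MvPowerSeries (R ⊕ X) 𝒜 := Sum.elim (fun _ => 1) fun x => .X (.inr x)
  have hz : ∀ u φ, Commute φ (z u) := by
    rintro (r | x) φ
    · exact Commute.one_right _
    · exact MvPowerSeries.commute_X φ _
  have hEu : ∀ u m, MvPowerSeries.coeff m (z u * D u) = (m u : k) • A m := by
    rintro (r | x) m
    · simp only [z, D, A, Sum.elim_inl, one_mul, coeff_serN, hD, dgm_apply]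
      rw [smul_comm]
    · exact coeff_X_mul_serN k T x m
  have hDD : ∀ u v, Commute (D u) (D v) := by
    intro u v
    change serN k _ * serN k _ = serN k _ * serN k _
    rw [serN_mul, serN_mul]
    exact congrArg _ (funext fun d => funext fun t => hW _ _ d t)
  have hB : ∀ u v (K : R ⊕ X →₀ ℕ),
      ∑ p ∈ antidiagonal K, ((p.1 u : k) * p.2 v) • (A p.1 * A p.2) =
        ∑ p ∈ antidiagonal K, ((p.1 v : k) * p.2 u) • (A p.1 * A p.2) := by
    intro u v K
    have h1 : Commute (z u * D u) (z v * D v) :=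
      ((hz u _).symm).mul_left ((hz v _).mul_right (hDD u v))
    have h2 := congrArg (MvPowerSeries.coeff K) h1.eq
    simpa only [MvPowerSeries.coeff_mul K (z _ * D _), hEu, smul_mul_smul_comm] using h2
  let wt : R ⊕ X → k := Sum.elim c w
  have hwt : ∀ (K m : R ⊕ X →₀ ℕ), m ≤ K → ∀ a : 𝒜, (A m = 0 → a = 0) →
      ∑ u ∈ K.support, (wt u * m u) • a = a := by
    intro K m hm a ha
    by_cases h0 : A m = 0
    · simp [ha h0]
    have h1 : T (dgm m) (Finsupp.toMultiset (exm m)) ≠ 0 := fun h => h0 (by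
      simp only [A, coeff_serN, h, smul_zero])
    have h2 := hE _ _ h1
    have h3 : ∑ u ∈ K.support, wt u * m u = m.sum fun u n => wt u * n :=
      (Finsupp.sum_of_support_subset m (Finsupp.support_mono hm) (fun u n => wt u * n)
        (fun _ _ => by simp)).symm
    have h4 : (m.sum fun u n => wt u * n) = ((dgm m).sum fun r n => c r * n) +
        ((Finsupp.toMultiset (exm m)).map w).sum := by
      clear h0 h1 h2 h3 ha hm
      induction m using Finsupp.induction_linear with
      | zero => simp [dgm_zero, exm_zero]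
      | add f g hf hg =>
        rw [Finsupp.sum_add_index' (by simp) (by simp [mul_add]), hf, hg, dgm_add, exm_add,
          Finsupp.sum_add_index' (by simp) (by simp [mul_add]), map_add, Multiset.map_add,
          Multiset.sum_add]
        ring
      | single u n =>
        rcases u with r | x
        · have e1 : dgm (Finsupp.single (.inl r) n : R ⊕ X →₀ ℕ) = Finsupp.single r n := by
            ext b; simp [dgm_apply, Finsupp.single_apply]
          have e2 : exm (Finsupp.single (.inl r) n : R ⊕ X →₀ ℕ) = 0 := by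
            ext b; simp [exm_apply]
          simp [e1, e2, wt]
        · have e1 : dgm (Finsupp.single (.inr x) n : R ⊕ X →₀ ℕ) = 0 := by
            ext b; simp [dgm_apply]
          have e2 : exm (Finsupp.single (.inr x) n : R ⊕ X →₀ ℕ) = Finsupp.single x n := by
            ext b; simp [exm_apply, Finsupp.single_apply]
          simp [e1, e2, wt, Multiset.map_nsmul, Multiset.sum_nsmul, mul_comm]
    rw [← Finset.sum_smul, h3, h4, h2, one_smul]
  have hc := her_comm k A hA (fun i K => by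
    have h1 : ∑ p ∈ antidiagonal K, (p.2 i : k) • (A p.1 * A p.2) =
        ∑ u ∈ K.support, wt u • ∑ p ∈ antidiagonal K, ((p.1 u : k) * p.2 i) • (A p.1 * A p.2) := by
      simp only [Finset.smul_sum]
      rw [Finset.sum_comm]
      refine Finset.sum_congr rfl fun p hp => ?_
      rw [← hwt K p.1 (mem_antidiagonal.1 hp ▸ le_self_add) ((p.2 i : k) • (A p.1 * A p.2))
        (fun h => by rw [h, zero_mul, smul_zero])]
      simp only [smul_smul, mul_assoc]
    have h2 : ∑ p ∈ antidiagonal K, (p.1 i : k) • (A p.1 * A p.2) =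
        ∑ u ∈ K.support, wt u • ∑ p ∈ antidiagonal K, ((p.1 i : k) * p.2 u) • (A p.1 * A p.2) := by
      simp only [Finset.smul_sum]
      rw [Finset.sum_comm]
      refine Finset.sum_congr rfl fun p hp => ?_
      rw [← hwt K p.2 (mem_antidiagonal.1 hp ▸ le_add_self) ((p.1 i : k) • (A p.1 * A p.2))
        (fun h => by rw [h, mul_zero, smul_zero])]
      simp only [smul_smul, mul_assoc, mul_comm (p.1 i : k)]
    simp only [smul_sub, Finset.sum_sub_distrib]
    rw [h1, Finsupp.sum_antidiagonal_swap K fun a b => (b i : k) • (A b * A a), h2]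
    simp only [hB _ i, sub_self])
  obtain ⟨m, rfl, rfl⟩ := exists_mon d t
  obtain ⟨m', rfl, rfl⟩ := exists_mon d' t'
  exact (Commute.smul_right_iff₀ (hf m')).1 ((Commute.smul_left_iff₀ (hf m)).1 (hc m m'))

end ring

/-- The Hermitian trick, list form. -/
theorem herL_jnt {k : Type} [Field k] [CharZero k] [IsAlgClosed k] {V R X : Type} [AddCommGroup V]
    [Module k V] [FiniteDimensional k V] [DecidableEq R] {s : k →+* k} (b : V →ₛₗ[s] V →ₗ[k] k)
    (hb : ∀ v, b v v = 0 → v = 0) (T : (R →₀ ℕ) → Multiset X → Module.End k V)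
    (hT : ∀ d t v v', b (T d t v) v' = b v (T d t v')) (L : R → X) (c : R → k) (w : X → k)
    (hW : ∀ x y d t, cv (fun d₁ t₁ d₂ t₂ => T d₁ (x ::ₘ t₁) * T d₂ (y ::ₘ t₂)) d t =
      cv (fun d₁ t₁ d₂ t₂ => T d₁ (y ::ₘ t₁) * T d₂ (x ::ₘ t₂)) d t)
    (hD : ∀ r d t, T d (L r ::ₘ t) = (d r : k) • T d t)
    (hE : ∀ d t, T d t ≠ 0 → (d.sum fun r n => c r * n) + (t.map w).sum = 1) :
    (∀ d t d' t', Commute (T d t) (T d' t')) ∧
      ∃ (m : ℕ) (π : Fin m → Module.End k V) (χ : Fin m → (R →₀ ℕ) × Multiset X → k),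
        Jnt (fun p : (R →₀ ℕ) × Multiset X => T p.1 p.2) π χ := by
  have hd : ∀ d t, Dgz (T d t) := fun d t => dgz_of_form b hb (hT d t)
  have hc := herL_comm k T (fun d t => (hd d t).adS) L c w hW hD hE
  exact ⟨hc, exists_jnt _ (fun p => hd p.1 p.2) fun p q => hc _ _ _ _⟩

end Vale.Agent.P287Q.Alg
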