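import Mathlib

/-! Antidiagonals of multisets, of exponent vectors and of finite sets. -/

namespace Vale.Agent.P287Q.Alg

open Finset.HasAntidiagonal

variable {ι α β : Type*}

/-- the product of the factorials of the exponents -/
def fc (e : ι →₀ ℕ) : ℕ := e.prod fun _ n => n.factorial

theorem fc_zero : fc (0 : ι →₀ ℕ) = 1 := by simp [fc]

theorem fc_ne (e : ι →₀ ℕ) : fc e ≠ 0 := Finset.prod_ne_zero_iff.2 fun _ _ => Nat.factorial_ne_zero _

theorem fc_add_single (e : ι →₀ ℕ) (a : ι) : fc (e + Finsupp.single a 1) = (e a + 1) * fc e := by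
  classical
  have h1 : ∀ g : ι →₀ ℕ, g.support ⊆ insert a e.support →
      fc g = (g a).factorial * ∏ x ∈ e.support.erase a, (g x).factorial := by
    intro g hg
    rw [fc, Finsupp.prod_of_support_subset g hg _ (fun _ _ => rfl),
      ← Finset.mul_prod_erase _ _ (Finset.mem_insert_self a _), Finset.erase_insert_eq_erase]
  rw [h1 e (Finset.subset_insert _ _), h1 (e + Finsupp.single a 1)]
  · rw [Finsupp.add_apply, Finsupp.single_eq_same, Nat.factorial_succ, mul_assoc]
    congr 2
    refine Finset.prod_congr rfl fun x hx => ?_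
    rw [Finsupp.add_apply, Finsupp.single_eq_of_ne (Finset.ne_of_mem_erase hx), add_zero]
  · refine Finsupp.support_add.trans ?_
    rw [Finset.insert_eq, Finset.union_comm]
    exact Finset.union_subset_union Finsupp.support_single_subset (Finset.Subset.refl _)

theorem fc_cons [DecidableEq ι] (a : ι) (m : Multiset ι) :
    fc (Multiset.toFinsupp (a ::ₘ m)) = (m.count a + 1) * fc (Multiset.toFinsupp m) := by
  rw [← Multiset.singleton_add, add_comm, Multiset.toFinsupp_add, Multiset.toFinsupp_singleton,
    fc_add_single, Multiset.toFinsupp_apply]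

theorem count_antidiagonal [DecidableEq ι] (m m₁ m₂ : Multiset ι) (h : m₁ + m₂ = m) :
    m.antidiagonal.count (m₁, m₂) * (fc (Multiset.toFinsupp m₁) * fc (Multiset.toFinsupp m₂)) =
      fc (Multiset.toFinsupp m) := by
  induction m using Multiset.induction_on generalizing m₁ m₂ with
  | empty =>
    obtain ⟨rfl, rfl⟩ := add_eq_zero.1 h
    simp [fc_zero]
  | cons a m ih =>
    have hc : m₁.count a + m₂.count a = m.count a + 1 := by
      rw [← Multiset.count_add, h, Multiset.count_cons_self]
    have i1 : Function.Injective (Prod.map id (Multiset.cons a) :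
        Multiset ι × Multiset ι → Multiset ι × Multiset ι) :=
      Function.injective_id.prodMap fun _ _ e => (Multiset.cons_inj_right a).1 e
    have i2 : Function.Injective (Prod.map (Multiset.cons a) id :
        Multiset ι × Multiset ι → Multiset ι × Multiset ι) :=
      Function.Injective.prodMap (fun _ _ e => (Multiset.cons_inj_right a).1 e)
        Function.injective_id
    have e1 : ((m.antidiagonal).map (Prod.map id (Multiset.cons a))).count (m₁, m₂) *
        (fc (Multiset.toFinsupp m₁) * fc (Multiset.toFinsupp m₂)) =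
        m₂.count a * fc (Multiset.toFinsupp m) := by
      by_cases ha : a ∈ m₂
      · obtain ⟨t, rfl⟩ := Multiset.exists_cons_of_mem ha
        have h' : m₁ + t = m := by
          rw [Multiset.add_cons] at h
          exact (Multiset.cons_inj_right a).1 h
        have := Multiset.count_map_eq_count' _ m.antidiagonal i1 (m₁, t)
        rw [Prod.map_apply, id] at this
        rw [this, fc_cons, Multiset.count_cons_self, ← ih m₁ t h']
        ring
      · rw [Multiset.count_eq_zero.2 ha, Multiset.count_eq_zero.2, zero_mul, zero_mul]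
        intro hm
        obtain ⟨⟨u, v⟩, -, huv⟩ := Multiset.mem_map.1 hm
        have e : a ::ₘ v = m₂ := (Prod.ext_iff.1 huv).2
        exact ha (e ▸ Multiset.mem_cons_self a v)
    have e2 : ((m.antidiagonal).map (Prod.map (Multiset.cons a) id)).count (m₁, m₂) *
        (fc (Multiset.toFinsupp m₁) * fc (Multiset.toFinsupp m₂)) =
        m₁.count a * fc (Multiset.toFinsupp m) := by
      by_cases ha : a ∈ m₁
      · obtain ⟨t, rfl⟩ := Multiset.exists_cons_of_mem ha
        have h' : t + m₂ = m := by
          rw [Multiset.cons_add] at h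
          exact (Multiset.cons_inj_right a).1 h
        have := Multiset.count_map_eq_count' _ m.antidiagonal i2 (t, m₂)
        rw [Prod.map_apply, id] at this
        rw [this, fc_cons, Multiset.count_cons_self, ← ih t m₂ h']
        ring
      · rw [Multiset.count_eq_zero.2 ha, Multiset.count_eq_zero.2, zero_mul, zero_mul]
        intro hm
        obtain ⟨⟨u, v⟩, -, huv⟩ := Multiset.mem_map.1 hm
        have e : a ::ₘ u = m₁ := (Prod.ext_iff.1 huv).1
        exact ha (e ▸ Multiset.mem_cons_self a u)
    rw [Multiset.antidiagonal_cons, Multiset.count_add, add_mul, e1, e2, fc_cons, ← hc]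
    ring

/-- The antidiagonal of a multiset against the antidiagonal of its exponent vector. -/
theorem sum_antidiagonal (K : Type*) [Field K] [CharZero K] [DecidableEq ι] {M : Type*}
    [AddCommMonoid M] [Module K M] (F : Multiset ι → Multiset ι → M) (e : ι →₀ ℕ) :
    (fc e : K)⁻¹ • ((Finsupp.toMultiset e).antidiagonal.map fun u => F u.1 u.2).sum =
      ∑ p ∈ antidiagonal e, ((fc p.1 : K)⁻¹ * (fc p.2 : K)⁻¹) •
        F (Finsupp.toMultiset p.1) (Finsupp.toMultiset p.2) := by
  rw [Finset.sum_multiset_map_count, Finset.smul_sum]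
  refine Finset.sum_nbij' (fun u => (Multiset.toFinsupp u.1, Multiset.toFinsupp u.2))
    (fun p => (Finsupp.toMultiset p.1, Finsupp.toMultiset p.2)) ?_ ?_ ?_ ?_ ?_
  · intro u hu
    rw [Multiset.mem_toFinset, Multiset.mem_antidiagonal] at hu
    rw [mem_antidiagonal, ← Multiset.toFinsupp_add, hu, Finsupp.toMultiset_toFinsupp]
  · intro p hp
    rw [mem_antidiagonal] at hp
    rw [Multiset.mem_toFinset, Multiset.mem_antidiagonal, ← Finsupp.toMultiset_add, hp]
  · intro u _; simp
  · intro p _; simp
  · rintro ⟨u, v⟩ hu
    rw [Multiset.mem_toFinset, Multiset.mem_antidiagonal] at hu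
    have h := count_antidiagonal _ u v hu
    rw [Finsupp.toMultiset_toFinsupp] at h
    simp only [Multiset.toFinsupp_toMultiset]
    rw [← Nat.cast_smul_eq_nsmul K, smul_smul]
    congr 1
    have h1 : (fc (Multiset.toFinsupp u) : K) ≠ 0 := Nat.cast_ne_zero.2 (fc_ne _)
    have h2 : (fc (Multiset.toFinsupp v) : K) ≠ 0 := Nat.cast_ne_zero.2 (fc_ne _)
    have h3 : (fc e : K) ≠ 0 := Nat.cast_ne_zero.2 (fc_ne _)
    have h4 := congrArg (Nat.cast : ℕ → K) h
    push_cast at h4
    field_simp
    rw [← h4, mul_assoc]

theorem antidiagonal_map (φ : α → β) (m : Multiset α) :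
    (m.map φ).antidiagonal = m.antidiagonal.map (Prod.map (Multiset.map φ) (Multiset.map φ)) := by
  induction m using Multiset.induction_on with
  | empty => simp
  | cons a m ih =>
    simp only [Multiset.map_cons, Multiset.antidiagonal_cons, ih, Multiset.map_add,
      Multiset.map_map]
    congr 1 <;> refine Multiset.map_congr rfl fun u _ => ?_ <;> simp [Prod.map]

/-- Subsets of a finite set of markings against the antidiagonal of the multiset of insertions. -/
theorem sum_powerset [DecidableEq ι] {M : Type*} [AddCommMonoid M] (s : Finset ι) (x : ι → α)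
    (F : Multiset α → Multiset α → M) :
    ∑ T ∈ s.powerset, F (T.val.map x) ((s \ T).val.map x) =
      ((s.val.map x).antidiagonal.map fun u => F u.1 u.2).sum := by
  induction s using Finset.induction_on generalizing F with
  | empty => simp
  | insert a s ha ih =>
    rw [Finset.sum_powerset_insert ha, Finset.insert_val_of_notMem ha, Multiset.map_cons,
      Multiset.antidiagonal_cons, Multiset.map_add, Multiset.sum_add, Multiset.map_map,
      Multiset.map_map]
    congr 1
    · refine Eq.trans (Finset.sum_congr rfl fun T hT => ?_) (ih fun s t => F s (x a ::ₘ t))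
      have h1 : a ∉ T := fun h => ha (Finset.mem_powerset.1 hT h)
      have h2 : a ∉ s \ T := fun h => ha (Finset.mem_sdiff.1 h).1
      rw [Finset.insert_sdiff_of_notMem _ h1, Finset.insert_val_of_notMem h2, Multiset.map_cons]
    · refine Eq.trans (Finset.sum_congr rfl fun T hT => ?_) (ih fun s t => F (x a ::ₘ s) t)
      have h1 : a ∉ T := fun h => ha (Finset.mem_powerset.1 hT h)
      rw [Finset.insert_val_of_notMem h1, Multiset.map_cons, Finset.insert_sdiff_insert,
        Finset.sdiff_insert_of_notMem ha]

theorem sum_finset [DecidableEq ι] [Fintype ι] {M : Type*} [AddCommMonoid M] (x : ι → α)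
    (F : Multiset α → Multiset α → M) :
    ∑ T : Finset ι, F (T.val.map x) (Tᶜ.val.map x) =
      ((Finset.univ.val.map x).antidiagonal.map fun u => F u.1 u.2).sum := by
  rw [← sum_powerset, Finset.powerset_univ]
  rfl

/-- The antidiagonal of an exponent vector in two groups of variables. -/
theorem sum_antidiagonal_sum [DecidableEq α] [DecidableEq β] {M : Type*} [AddCommMonoid M]
    (e : α ⊕ β →₀ ℕ) (G : (α →₀ ℕ) × (β →₀ ℕ) → (α →₀ ℕ) × (β →₀ ℕ) → M) :
    ∑ p ∈ antidiagonal e, G (Finsupp.sumFinsuppAddEquivProdFinsupp p.1)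
        (Finsupp.sumFinsuppAddEquivProdFinsupp p.2) =
      ∑ a ∈ antidiagonal (Finsupp.sumFinsuppAddEquivProdFinsupp e).1,
        ∑ b ∈ antidiagonal (Finsupp.sumFinsuppAddEquivProdFinsupp e).2, G (a.1, b.1) (a.2, b.2) := by
  rw [← Finset.sum_product']
  set E := Finsupp.sumFinsuppAddEquivProdFinsupp (M := ℕ) (α := α) (β := β)
  refine Finset.sum_nbij' (fun p => (((E p.1).1, (E p.2).1), ((E p.1).2, (E p.2).2)))
    (fun q => (E.symm (q.1.1, q.2.1), E.symm (q.1.2, q.2.2))) ?_ ?_ ?_ ?_ ?_
  · intro p hp
    rw [mem_antidiagonal] at hp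
    rw [Finset.mem_product, mem_antidiagonal, mem_antidiagonal, ← hp, map_add]
    exact ⟨rfl, rfl⟩
  · intro q hq
    rw [Finset.mem_product, mem_antidiagonal, mem_antidiagonal] at hq
    rw [mem_antidiagonal, ← map_add, Prod.mk_add_mk, hq.1, hq.2]
    exact E.symm_apply_apply e
  · intro p _; simp
  · intro q _; simp
  · intro p _; rfl

end Vale.Agent.P287Q.Alg
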