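import Vale.Agent.P287Q.Alg.Pcs

/-!
# Characteristic polynomial of a block-scalar matrix
-/

open Matrix Polynomial

namespace Vale.Agent.P287Q.Alg

variable {k : Type*} [Field k] {n : Type*} [Fintype n] [DecidableEq n]

theorem idem_toLin' {e : Matrix n n k} (he : IsIdempotentElem e) :
    IsIdempotentElem (Matrix.toLin' e) := by
  change Matrix.toLin' e * Matrix.toLin' e = Matrix.toLin' e
  rw [Module.End.mul_eq_comp, ← Matrix.toLin'_mul, he.eq]

theorem trace_idem {e : Matrix n n k} (he : IsIdempotentElem e) : e.trace = (e.rank : k) := by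
  rw [← Matrix.trace_toLin'_eq, (LinearMap.IsIdempotentElem.isProj_range _ (idem_toLin' he)).trace]
  rfl

theorem det_idem_field {e : Matrix n n k} (he : IsIdempotentElem e) (t : k) :
    (t • e + (1 - e)).det = t ^ e.rank := by
  have hp := LinearMap.IsIdempotentElem.isProj_range _ (idem_toLin' he)
  set f := Matrix.toLin' e with hf
  set q := (LinearMap.range f).prodEquivOfIsCompl (LinearMap.ker f) hp.isCompl with hq
  have h1 : Matrix.toLin' (t • e + (1 - e)) =
      q.toLinearMap ∘ₗ (LinearMap.prodMap (t • LinearMap.id) LinearMap.id) ∘ₗ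
        q.symm.toLinearMap := by
    rw [← LinearMap.comp_assoc, LinearEquiv.eq_comp_toLinearMap_symm]
    refine LinearMap.ext fun x => ?_
    obtain ⟨⟨x, hx⟩, ⟨y, hy⟩⟩ := x
    have hx' : f x = x := hp.map_id x hx
    have hy' : f y = 0 := hy
    simp [hq, ← hf, hx', hy']
  rw [← LinearMap.det_toLin', h1, LinearMap.det_conj, LinearMap.det_prodMap, LinearMap.det_smul,
    LinearMap.det_id, LinearMap.det_id, mul_one, mul_one]
  rfl

theorem det_idem [CharZero k] {S : Type*} [CommRing S] [Algebra k S] {e : Matrix n n k}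
    (he : IsIdempotentElem e) (a : S) : (a • cm S e + (1 - cm S e)).det = a ^ e.rank := by
  have h1 : ((X : k[X]) • cm k[X] e + (1 - cm k[X] e)).det = X ^ e.rank := by
    refine Polynomial.funext fun t => ?_
    rw [← coe_evalRingHom, RingHom.map_det, map_pow, coe_evalRingHom, eval_X,
      ← det_idem_field he t]
    congr 1
    ext i j
    by_cases h : i = j <;> simp [h] <;> ring
  have h2 := congrArg (aeval a : k[X] →ₐ[k] S) h1
  rw [map_pow, aeval_X, AlgHom.map_det] at h2
  rw [← h2]
  congr 1
  ext i j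
  by_cases h : i = j <;> simp [h] <;> ring

theorem det_coi [CharZero k] {S : Type*} [CommRing S] [Algebra k S] {Γ : Type*} [Fintype Γ]
    {π : Γ → Matrix n n k} (h : CompleteOrthogonalIdempotents π) (a : Γ → S) :
    (∑ γ, a γ • cm S (π γ)).det = ∏ γ, a γ ^ (π γ).rank := by
  classical
  have hc := Pcs.cm_coi (R := S) h
  have key : ∀ s : Finset Γ, (∑ γ ∈ s, a γ • cm S (π γ) + (1 - ∑ γ ∈ s, cm S (π γ))).det =
      ∏ γ ∈ s, a γ ^ (π γ).rank := by
    intro s
    induction s using Finset.induction_on with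
    | empty => simp
    | insert δ s hδ ih =>
      have e1 : (∑ γ ∈ s, a γ • cm S (π γ)) * cm S (π δ) = 0 := by
        rw [Finset.sum_mul]
        refine Finset.sum_eq_zero fun γ hγ => ?_
        rw [smul_mul_assoc, hc.ortho (fun e : γ = δ => hδ (e ▸ hγ)), smul_zero]
      have e2 : (∑ γ ∈ s, cm S (π γ)) * cm S (π δ) = 0 := by
        rw [Finset.sum_mul]
        exact Finset.sum_eq_zero fun γ hγ => hc.ortho (fun e : γ = δ => hδ (e ▸ hγ))
      rw [Finset.prod_insert hδ, ← ih, ← det_idem (h.idem δ), mul_comm, ← Matrix.det_mul,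
        Finset.sum_insert hδ, Finset.sum_insert hδ]
      congr 1
      simp only [mul_add, add_mul, mul_sub, sub_mul, mul_smul_comm, e1, e2, mul_one, one_mul,
        smul_zero, smul_add, smul_sub]
      abel
  have := key Finset.univ
  rwa [hc.complete, sub_self, add_zero] at this

theorem det_sub_nil {S : Type*} [CommRing S] [IsDomain S] {A N : Matrix n n S} (hA : A.det ≠ 0)
    (h : Commute A N) (hN : IsNilpotent N) : (A - N).det = A.det := by
  have hc : Commute N A.adjugate := by
    have h1 : A.det • (N * A.adjugate) = A.det • (A.adjugate * N) := by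
      calc A.det • (N * A.adjugate) = A.adjugate * (A * N) * A.adjugate := by
            rw [← mul_assoc, adjugate_mul, smul_mul_assoc, one_mul, smul_mul_assoc]
        _ = A.det • (A.adjugate * N) := by
            rw [h.eq, mul_assoc, mul_assoc, mul_adjugate, mul_smul_comm, mul_one, mul_smul_comm]
    ext i j
    exact mul_left_cancel₀ hA (congrFun (congrFun h1 i) j)
  have h2 := (Matrix.isNilpotent_charpoly_sub_pow_of_isNilpotent
    (hc.isNilpotent_mul_right hN)).eq_zero
  have h3 := Matrix.eval_charpoly (N * A.adjugate) A.det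
  rw [sub_eq_zero.1 h2, eval_pow, eval_X] at h3
  have h4 : scalar n A.det - N * A.adjugate = (A - N) * A.adjugate := by
    rw [sub_mul, mul_adjugate, ← scalar_mul', mul_one]
  have h5 : A.det * A.adjugate.det = A.det ^ Fintype.card n := by
    rw [← Matrix.det_mul, mul_adjugate, Matrix.det_smul, Matrix.det_one, mul_one]
  have h6 : A.adjugate.det ≠ 0 := fun e => pow_ne_zero _ hA (by rw [← h5, e, mul_zero])
  refine mul_right_cancel₀ h6 ?_
  rw [← Matrix.det_mul, ← h4, ← h3, h5]

variable {R : Type*} [CommRing R] [Algebra k R]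

/-- Characteristic polynomial of a block-scalar matrix. -/
theorem Blk.charpoly [CharZero k] [IsDomain R] {Γ : Type*} [Fintype Γ] {π : Γ → Matrix n n k}
    (hπ : CompleteOrthogonalIdempotents π) {M : Matrix n n R} {c : Γ → R} (h : Blk π M c) :
    M.charpoly = ∏ γ, (X - C (c γ)) ^ (π γ).rank := by
  classical
  have hc := Pcs.cm_coi (R := R) hπ
  let N := ∑ γ, (M - scalar n (c γ)) * cm R (π γ)
  have hM : M = ∑ γ, c γ • cm R (π γ) + N := by
    simp only [N, sub_mul, scalar_mul', Finset.sum_sub_distrib, ← Finset.mul_sum, hc.complete,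
      mul_one, add_sub_cancel]
  have hππ : ∀ γ δ, Commute (cm R (π γ)) (cm R (π δ)) := fun γ δ => by
    rw [Commute, SemiconjBy, hc.mul_eq, hc.mul_eq]
    by_cases e : γ = δ
    · subst e; rfl
    · rw [if_neg e, if_neg (Ne.symm e)]
  have hN : IsNilpotent N := by
    refine Commute.isNilpotent_sum (fun γ _ => h.nil γ) fun γ δ _ _ => ?_
    have h1 : Commute (M - scalar n (c γ)) (M - scalar n (c δ)) :=
      ((Commute.refl M).sub_left (scalar_comm _ _)).sub_right (scalar_comm _ _).symm
    exact (h1.mul_right (h.comm' _ δ)).mul_left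
      ((h.comm' _ γ).symm.mul_right (hππ γ δ))
  have hNπ : ∀ δ, Commute (cm R (π δ)) N := fun δ =>
    Commute.sum_right _ _ _ fun γ _ => (h.comm' _ δ).symm.mul_right (hππ δ γ)
  let f : Matrix n n R →+* Matrix n n R[X] := (C : R →+* R[X]).mapMatrix
  have hf : ∀ A : Matrix n n k, f (cm R A) = cm R[X] A := fun A => by ext i j : 2; rfl
  have hd := det_coi hπ fun γ => (X - C (c γ) : R[X])
  have h1 : charmatrix M = ∑ γ, (X - C (c γ) : R[X]) • cm R[X] (π γ) - f N := by
    have h2 : f (∑ γ, c γ • cm R (π γ)) = ∑ γ, (C (c γ) : R[X]) • cm R[X] (π γ) := by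
      rw [map_sum]
      refine Finset.sum_congr rfl fun γ _ => ?_
      rw [← scalar_mul', ← scalar_mul', map_mul, hf]
      congr 1
      exact map_scalar _ _
    simp only [sub_smul, Finset.sum_sub_distrib, ← Finset.smul_sum,
      (Pcs.cm_coi (R := R[X]) hπ).complete]
    rw [← h2, sub_sub, ← map_add, ← hM, ← scalar_mul', mul_one]
    rfl
  rw [Matrix.charpoly, h1, det_sub_nil, hd]
  · rw [hd]
    exact Finset.prod_ne_zero_iff.2 fun γ _ => pow_ne_zero _ (X_sub_C_ne_zero _)
  · refine Commute.sum_left _ _ _ fun γ _ => Commute.smul_left ?_ _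
    rw [← hf]; exact (hNπ γ).map f
  · exact hN.map f

/-- The eigenvalues of a block-scalar matrix, with multiplicity. -/
noncomputable def evs {Γ : Type*} [Fintype Γ] (π : Γ → Matrix n n k) (c : Γ → R) : Multiset R :=
  ∑ γ, Multiset.replicate (π γ).rank (c γ)

theorem Blk.charpoly_evs [CharZero k] [IsDomain R] {Γ : Type*} [Fintype Γ]
    {π : Γ → Matrix n n k} (hπ : CompleteOrthogonalIdempotents π) {M : Matrix n n R} {c : Γ → R}
    (h : Blk π M c) : M.charpoly = ((evs π c).map fun θ => X - C θ).prod := by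
  rw [h.charpoly hπ, evs, ← Multiset.coe_mapAddMonoidHom, map_sum, Multiset.prod_sum]
  simp

omit [DecidableEq n] in
theorem rank_eq_zero' {e : Matrix n n k} : e.rank = 0 ↔ e = 0 := by
  classical
  refine ⟨fun h => ?_, fun h => by rw [h, Matrix.rank_zero]⟩
  have h1 : LinearMap.range (Matrix.toLin' e) = ⊥ := Submodule.finrank_eq_zero.1 h
  simpa using LinearMap.range_eq_bot.1 h1

omit [Algebra k R] [CommRing R] [DecidableEq n] in
theorem mem_evs {Γ : Type*} [Fintype Γ] {π : Γ → Matrix n n k} {c : Γ → R} {θ : R} :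
    θ ∈ evs π c ↔ ∃ γ, π γ ≠ 0 ∧ c γ = θ := by
  classical
  simp only [evs, Multiset.mem_sum, Finset.mem_univ, true_and, Multiset.mem_replicate, ne_eq,
    rank_eq_zero', eq_comm (a := θ)]

omit [Algebra k R] [CommRing R] [DecidableEq n] in
theorem count_evs [DecidableEq R] {Γ : Type*} [Fintype Γ] (π : Γ → Matrix n n k) (c : Γ → R)
    (θ : R) : (evs π c).count θ = ∑ γ with c γ = θ, (π γ).rank := by
  rw [evs, Multiset.count_sum', Finset.sum_filter]
  simp only [Multiset.count_replicate]

theorem rank_sum [CharZero k] {Γ : Type*} {π : Γ → Matrix n n k} (hπ : OrthogonalIdempotents π)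
    (s : Finset Γ) : (∑ γ ∈ s, π γ).rank = ∑ γ ∈ s, (π γ).rank := by
  apply Nat.cast_injective (R := k)
  rw [← trace_idem hπ.isIdempotentElem_sum, Matrix.trace_sum, Nat.cast_sum]
  exact Finset.sum_congr rfl fun γ _ => trace_idem (hπ.idem γ)

omit [Algebra k R] [CommRing R] in
theorem card_evs [CharZero k] {Γ : Type*} [Fintype Γ] {π : Γ → Matrix n n k}
    (hπ : CompleteOrthogonalIdempotents π) (c : Γ → R) : (evs π c).card = Fintype.card n := by
  rw [evs, Multiset.card_sum]
  simp only [Multiset.card_replicate]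
  rw [← rank_sum hπ.toOrthogonalIdempotents, hπ.complete, Matrix.rank_one]

omit [Algebra k R] in
/-- Conjugate matrices have the same characteristic polynomial. -/
theorem charpoly_conj [IsDomain R] {U M M' : Matrix n n R} (hU : U.det ≠ 0)
    (h : U * M = M' * U) : M.charpoly = M'.charpoly := by
  let f : Matrix n n R →+* Matrix n n R[X] := (C : R →+* R[X]).mapMatrix
  have h1 : f U * charmatrix M = charmatrix M' * f U := by
    change f U * (scalar n X - f M) = (scalar n X - f M') * f U
    rw [mul_sub, sub_mul, ← map_mul, ← map_mul, h, (scalar_comm _ _).eq]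
  have h2 := congrArg Matrix.det h1
  rw [Matrix.det_mul, Matrix.det_mul, ← RingHom.map_det, mul_comm] at h2
  exact mul_right_cancel₀ (C_ne_zero.2 hU) h2

end Vale.Agent.P287Q.Alg
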