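import Vale.Agent.P287Q.Alg.Pcs

/-!
# Constancy of the pieces

If `Ω` commutes with all its derivatives, its generalized eigenspaces are constant.
-/

open Matrix Polynomial

namespace Vale.Agent.P287Q.Alg

variable {k : Type*} [Field k] {n : Type*} [Fintype n] [DecidableEq n]

section ext

variable {R : Type*} [CommRing R] [Algebra k R]

/-- Derivations extend along formally étale maps. -/
theorem der_ext (L : Type*) [CommRing L] [Algebra R L] [Algebra k L] [IsScalarTower k R L]
    [Algebra.FormallyEtale R L] (D : Derivation k R R) :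
    ∃ D' : Derivation k L L, ∀ r, D' (algebraMap R L r) = algebraMap R L (D r) := by
  let D1 : Derivation k R L := (Algebra.linearMap R L).compDer D
  let φ := (KaehlerDifferential.isBaseChange_of_formallyEtale k R L).lift
    D1.liftKaehlerDifferential
  refine ⟨KaehlerDifferential.linearMapEquivDerivation k L φ, fun r => ?_⟩
  change φ (KaehlerDifferential.D k L (algebraMap R L r)) = _
  rw [← KaehlerDifferential.map_D k k R L, IsBaseChange.lift_eq,
    Derivation.liftKaehlerDifferential_comp_D]
  rfl

omit [DecidableEq n] in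
theorem der_mul (D : Derivation k R R) (A B : Matrix n n R) :
    (A * B).map D = A.map D * B + A * B.map D := by
  ext i j
  simp only [Matrix.map_apply, Matrix.mul_apply, Matrix.add_apply, map_sum, Derivation.leibniz,
    smul_eq_mul, ← Finset.sum_add_distrib]
  exact Finset.sum_congr rfl fun l _ => by ring

omit [Fintype n] [DecidableEq n] in
theorem der_add (D : Derivation k R R) (A B : Matrix n n R) :
    (A + B).map D = A.map D + B.map D := by
  ext i j; simp

omit [Fintype n] [DecidableEq n] in
theorem der_sub (D : Derivation k R R) (A B : Matrix n n R) :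
    (A - B).map D = A.map D - B.map D := by
  ext i j; simp

omit [Fintype n] [DecidableEq n] in
theorem der_zero (D : Derivation k R R) : (0 : Matrix n n R).map D = 0 := by
  ext i j; simp

theorem der_scalar (D : Derivation k R R) (c : R) : (scalar n c).map D = scalar n (D c) := by
  ext i j
  by_cases h : i = j <;> simp [h]

omit [Fintype n] [DecidableEq n] in
theorem der_cm (D : Derivation k R R) (A : Matrix n n k) : (cm R A).map D = 0 := by
  ext i j; simp

theorem comm_aeval {X Ω : Matrix n n R} (h : Commute X Ω) (p : R[X]) :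
    Commute X (aeval Ω p) := by
  induction p using Polynomial.induction_on with
  | C a => rw [aeval_C]; exact (Algebra.commute_algebraMap_right a X)
  | add p q hp hq => rw [map_add]; exact hp.add_right hq
  | monomial m a hp =>
    rw [pow_succ, ← mul_assoc, map_mul, aeval_X]; exact hp.mul_right h

theorem comm_der_aeval (D : Derivation k R R) {Ω : Matrix n n R} (h : Commute Ω (Ω.map D))
    (p : R[X]) : Commute Ω ((aeval Ω p).map D) := by
  induction p using Polynomial.induction_on with
  | C a =>
    rw [aeval_C]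
    change Commute Ω ((scalar n a).map D)
    rw [der_scalar]; exact (scalar_comm _ _).symm
  | add p q hp hq => rw [map_add, der_add]; exact hp.add_right hq
  | monomial m a hp =>
    rw [pow_succ, ← mul_assoc, map_mul, aeval_X, der_mul]
    exact (hp.mul_right (Commute.refl _)).add_right
      ((comm_aeval (Commute.refl Ω) _).mul_right h)

theorem der_idem (D : Derivation k R R) {e : Matrix n n R} (he : IsIdempotentElem e)
    (h : Commute e (e.map D)) : e.map D = 0 := by
  have h1 := der_mul D e e
  rw [he.eq, ← h.eq] at h1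
  have h2 : e * e.map D = e * e.map D + e * e.map D := by
    conv_lhs => rw [h1, mul_add, ← mul_assoc, he.eq]
  have h3 : e * e.map D = 0 := by simpa using h2
  rw [h1, h3, add_zero]

/-- The derivative of a nilpotent matrix commuting with it is nilpotent. -/
theorem der_nil [CharZero k] (D : Derivation k R R) {N : Matrix n n R} (hN : IsNilpotent N)
    (h : Commute N (N.map D)) : IsNilpotent (N.map D) := by
  have hpow : ∀ j : ℕ, (N ^ (j + 1)).map D = ((j + 1 : ℕ) : k) • (N ^ j * N.map D) := by
    intro j
    induction j with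
    | zero => simp
    | succ j ih =>
      rw [pow_succ, der_mul, ih, smul_mul_assoc, mul_assoc, ← h.eq, ← mul_assoc, ← pow_succ,
        Nat.cast_succ (j + 1), add_smul, one_smul]
  have step : ∀ j : ℕ, (∃ a : ℕ, N ^ j * N.map D ^ a = 0) → IsNilpotent (N.map D) := by
    intro j
    induction j with
    | zero => rintro ⟨a, ha⟩; exact ⟨a, by simpa using ha⟩
    | succ j ih =>
      rintro ⟨a, ha⟩
      refine ih ⟨a + 1 + a, ?_⟩
      have h1 := congrArg (fun M => N.map D ^ a * Matrix.map M D) ha
      simp only [der_mul, der_zero, mul_zero, mul_add, hpow] at h1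
      have hc : Commute (N.map D ^ a) (N ^ (j + 1)) := (h.symm.pow_pow _ _)
      rw [← mul_assoc (N.map D ^ a) (N ^ (j + 1)), hc.eq, ha, zero_mul, add_zero, smul_mul_assoc,
        mul_smul_comm, smul_eq_zero_iff_right (by exact_mod_cast Nat.succ_ne_zero j)] at h1
      rw [pow_add, pow_add, pow_one, ← mul_assoc, ← mul_assoc, ← (h.symm.pow_pow a j).eq]
      simpa only [mul_assoc] using h1
  obtain ⟨m, hm⟩ := hN
  exact step m ⟨0, by simpa using hm⟩

/-- The derivative of a block-scalar matrix is block-scalar. -/
theorem Blk.der [CharZero k] {Γ : Type*} {π : Γ → Matrix n n k} {Ω : Matrix n n R} {θ : Γ → R}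
    (h : Blk π Ω θ) (D : Derivation k R R) (hc : Commute Ω (Ω.map D)) :
    Blk π (Ω.map D) (fun γ => D (θ γ)) := by
  have h1 : ∀ γ, Commute (Ω.map D) (cm R (π γ)) := fun γ => by
    have := congrArg (fun M => Matrix.map M D) (h.comm γ).eq
    simp only [der_mul, der_cm, mul_zero, add_zero, zero_mul, zero_add] at this
    exact this
  refine ⟨h1, fun γ => ?_⟩
  have h2 : ((Ω - scalar n (θ γ)) * cm R (π γ)).map D =
      (Ω.map D - scalar n (D (θ γ))) * cm R (π γ) := by
    rw [der_mul, der_cm, mul_zero, add_zero, der_sub, der_scalar]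
  rw [← h2]
  refine der_nil D (h.nil γ) ?_
  rw [h2]
  have h3 : Commute (Ω - scalar n (θ γ)) (Ω.map D - scalar n (D (θ γ))) :=
    (hc.sub_left (scalar_comm _ _)).sub_right (scalar_comm _ _).symm
  exact (h3.mul_right (h.comm' _ γ)).mul_left
    (((h1 γ).sub_left (scalar_comm _ _)).symm.mul_right (Commute.refl _))

end ext

/-- The common constants of the fraction field are the elements of `k`. -/
def Const {R : Type*} [CommRing R] [Algebra k R] {ι : Type*} (D : ι → Derivation k R R) : Prop :=
  ∀ a b : R, b ≠ 0 → (∀ i, b * D i a = a * D i b) → ∃ c : k, a = c • b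

/-- Constants of an algebraic extension. -/
theorem const_alg [IsAlgClosed k] {R L : Type*} [CommRing R] [Algebra k R] [Field L] [Algebra R L]
    [Algebra k L] [IsScalarTower k R L] {ι : Type*} {D : ι → Derivation k R R} (hD : Const D)
    (hinj : Function.Injective (algebraMap R L)) (D' : ι → Derivation k L L)
    (hD' : ∀ i r, D' i (algebraMap R L r) = algebraMap R L (D i r)) {x : L}
    (hx : IsAlgebraic R x) (h0 : ∀ i, D' i x = 0) : ∃ c : k, algebraMap k L c = x := by
  classical
  have ex : ∃ d : ℕ, ∃ p : R[X], p ≠ 0 ∧ aeval x p = 0 ∧ p.natDegree = d := by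
    obtain ⟨p, h1, h2⟩ := hx
    exact ⟨_, p, h1, h2, rfl⟩
  obtain ⟨p, hp0, hpx, hpd⟩ := Nat.find_spec ex
  have hmin : ∀ q : R[X], aeval x q = 0 → q.degree < p.degree → q = 0 := by
    intro q hq hlt
    by_contra hq0
    exact Nat.find_min ex (hpd ▸ natDegree_lt_natDegree hq0 hlt) ⟨q, hq0, hq, rfl⟩
  set d := p.natDegree with hd
  have hb : p.coeff d ≠ 0 := leadingCoeff_ne_zero.2 hp0
  have hxp : ∀ i j, D' i (x ^ j) = 0 := fun i j => by simp [Derivation.leibniz_pow, h0]
  have hsum : ∑ j ∈ Finset.range (d + 1), algebraMap R L (p.coeff j) * x ^ j = 0 := by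
    rw [← hpx, aeval_eq_sum_range]
    simp only [Algebra.smul_def, hd]
  have key : ∀ i j, p.coeff d * D i (p.coeff j) = p.coeff j * D i (p.coeff d) := by
    intro i j
    let q : R[X] := ∑ j ∈ Finset.range (d + 1),
      monomial j (p.coeff d * D i (p.coeff j) - p.coeff j * D i (p.coeff d))
    have hqc : ∀ j, q.coeff j = p.coeff d * D i (p.coeff j) - p.coeff j * D i (p.coeff d) := by
      intro j
      simp only [q, finsetSum_coeff, coeff_monomial, Finset.sum_ite_eq', Finset.mem_range]
      split_ifs with h
      · rfl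
      · rw [coeff_eq_zero_of_natDegree_lt (p := p) (n := j) (by omega)]
        simp
    have hq : aeval x q = 0 := by
      have h1 := congrArg (D' i) hsum
      simp only [map_sum, Derivation.leibniz, hxp, mul_zero, zero_add, hD', map_zero,
        smul_eq_mul] at h1
      simp only [q, map_sum, aeval_monomial, map_sub, map_mul, Finset.sum_sub_distrib]
      have h2 : ∑ j ∈ Finset.range (d + 1), algebraMap R L (p.coeff d) *
          algebraMap R L (D i (p.coeff j)) * x ^ j = algebraMap R L (p.coeff d) *
          ∑ j ∈ Finset.range (d + 1), x ^ j * algebraMap R L (D i (p.coeff j)) := by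
        rw [Finset.mul_sum]; exact Finset.sum_congr rfl fun j _ => by ring
      have h3 : ∑ j ∈ Finset.range (d + 1), algebraMap R L (p.coeff j) *
          algebraMap R L (D i (p.coeff d)) * x ^ j = algebraMap R L (D i (p.coeff d)) *
          ∑ j ∈ Finset.range (d + 1), algebraMap R L (p.coeff j) * x ^ j := by
        rw [Finset.mul_sum]; exact Finset.sum_congr rfl fun j _ => by ring
      rw [h2, h3, h1, hsum, mul_zero, mul_zero, sub_self]
    have hdeg : q.degree < p.degree := by
      rw [degree_eq_natDegree hp0, degree_lt_iff_coeff_zero]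
      intro m hm
      rw [hqc]
      rcases hm.eq_or_lt with h | h
      · rw [← h, ← hd, sub_self]
      · rw [coeff_eq_zero_of_natDegree_lt h]; simp
    have := hqc j
    rw [hmin q hq hdeg, coeff_zero] at this
    exact (sub_eq_zero.1 this.symm)
  choose c hc using fun j => hD (p.coeff j) (p.coeff d) hb fun i => key i j
  have hcd : c d = 1 := by
    have h1 : algebraMap R L (p.coeff d) ≠ 0 := by rwa [ne_eq, map_eq_zero_iff _ hinj]
    have h2 := congrArg (algebraMap R L) (hc d)
    rw [Algebra.smul_def, map_mul, ← IsScalarTower.algebraMap_apply] at h2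
    have h3 : algebraMap k L (c d) = 1 := by
      rw [← mul_left_inj' h1, one_mul]; exact h2.symm
    exact (algebraMap k L).injective (by rw [h3, map_one])
  have halg : IsAlgebraic k x := by
    refine ⟨∑ j ∈ Finset.range (d + 1), monomial j (c j), fun h => ?_, ?_⟩
    · have := congrArg (fun q => coeff q d) h
      simp [coeff_monomial, hcd] at this
    · have h1 : algebraMap R L (p.coeff d) ≠ 0 := by rwa [ne_eq, map_eq_zero_iff _ hinj]
      refine (mul_eq_zero.1 ?_).resolve_left h1
      rw [← hsum]
      simp only [map_sum, aeval_monomial, Finset.mul_sum]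
      refine Finset.sum_congr rfl fun j _ => ?_
      conv_rhs => rw [hc j, Algebra.smul_def, map_mul, ← IsScalarTower.algebraMap_apply]
      ring
  exact minpoly.mem_range_of_degree_eq_one k x
    (IsAlgClosed.degree_eq_one_of_irreducible k (minpoly.irreducible halg.isIntegral))

theorem coi_sub {A I : Type*} [Semiring A] [Fintype I] {e : I → A}
    (h : CompleteOrthogonalIdempotents e) [DecidablePred fun i => e i ≠ 0] :
    CompleteOrthogonalIdempotents (fun i : {i // e i ≠ 0} => e i) := by
  refine ⟨h.toOrthogonalIdempotents.embedding (Function.Embedding.subtype _), ?_⟩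
  rw [← h.complete, ← Finset.sum_subtype (Finset.univ.filter fun i => e i ≠ 0) (by simp),
    Finset.sum_filter_ne_zero]

/-- Spectral projectors over an algebraically closed field are polynomials in the matrix. -/
theorem spec_proj {L : Type*} [Field L] [IsAlgClosed L] (Ω : Matrix n n L) :
    ∃ (s : Finset L) (p : s → L[X]), CompleteOrthogonalIdempotents (fun θ => aeval Ω (p θ)) ∧
      ∀ θ : s, IsNilpotent ((Ω - scalar n θ.1) * aeval Ω (p θ)) := by
  classical
  rcases isEmpty_or_nonempty n with hn | hn
  · exact ⟨∅, fun _ => 0, CompleteOrthogonalIdempotents.of_subsingleton, fun θ => by simp⟩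
  set s := Ω.charpoly.roots.toFinset with hs
  set N := Fintype.card n with hN
  have hsp : Ω.charpoly.Splits := IsAlgClosed.splits _
  have hdvd : Ω.charpoly ∣ ∏ θ : s, (X - C θ.1) ^ N := by
    rw [Finset.prod_coe_sort s fun θ => (X - C θ) ^ N]
    conv_lhs => rw [hsp.eq_prod_roots_of_monic Ω.charpoly_monic,
      prod_multiset_root_eq_finset_root]
    refine Finset.prod_dvd_prod_of_dvd _ _ fun θ _ => pow_dvd_pow _ ?_
    rw [hN, ← Ω.charpoly_natDegree_eq_dim, ← count_roots]
    exact (Multiset.count_le_card _ _).trans (card_roots' _)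
  have hne : Nonempty s := by
    have : Ω.charpoly.degree ≠ 0 := by
      rw [Ω.charpoly_degree_eq_dim]
      exact_mod_cast Fintype.card_ne_zero
    obtain ⟨x, hx⟩ := IsAlgClosed.exists_root _ this
    exact ⟨x, by simpa [hs, Ω.charpoly_monic.ne_zero] using hx⟩
  obtain ⟨μ, hμ⟩ := (exists_sum_eq_one_iff_pairwise_coprime'
    (s := fun θ : s => (X - C θ.1) ^ N)).2 fun a b hab =>
      (isCoprime_X_sub_C_of_isUnit_sub
        (sub_ne_zero.2 fun e => hab (Subtype.ext e)).isUnit).pow
  have h0 : ∀ q : L[X], (∏ θ : s, (X - C θ.1) ^ N) ∣ q → aeval Ω q = 0 := by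
    intro q hq
    obtain ⟨r, rfl⟩ := hdvd.trans hq
    rw [map_mul, Matrix.aeval_self_charpoly, zero_mul]
  have hsplit : ∀ θ : s, ∏ θ' : s, (X - C θ'.1) ^ N =
      (X - C θ.1) ^ N * ∏ j ∈ {θ}ᶜ, (X - C j.1) ^ N := fun θ => by
    rw [← Finset.prod_mul_prod_compl {θ}, Finset.prod_singleton]
  refine ⟨s, fun θ => μ θ * ∏ j ∈ {θ}ᶜ, (X - C j.1) ^ N, ?_, fun θ => ⟨N + 1, ?_⟩⟩
  · rw [CompleteOrthogonalIdempotents.iff_ortho_complete]
    refine ⟨fun a b hab => ?_, by rw [← map_sum, hμ, map_one]⟩
    change aeval Ω _ * aeval Ω _ = 0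
    rw [← map_mul]
    apply h0
    rw [hsplit a, mul_comm ((X - C a.1) ^ N)]
    refine mul_dvd_mul (dvd_mul_left _ _) (Dvd.dvd.mul_left ?_ _)
    exact Finset.dvd_prod_of_mem (fun j : s => (X - C j.1) ^ N) (by simpa using hab)
  · have h1 : Ω - scalar n θ.1 = aeval Ω (X - C θ.1) := by
      rw [map_sub, aeval_X, aeval_C]; rfl
    rw [h1, ← map_mul, ← map_pow]
    apply h0
    rw [hsplit θ, mul_pow]
    refine mul_dvd_mul (pow_dvd_pow _ (Nat.le_succ N)) ?_
    exact (dvd_mul_left _ _).trans (dvd_pow_self _ (Nat.succ_ne_zero N))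

/-- Constancy of the pieces. -/
theorem exists_pcs [IsAlgClosed k] [CharZero k] {R : Type*} [CommRing R] [IsDomain R]
    [Algebra k R] {ι : Type*} {D : ι → Derivation k R R} (hD : Const D) (Ω : Matrix n n R)
    (hΩ : ∀ i, Commute Ω (Ω.map (D i))) :
    ∃ (r : ℕ) (π : Fin r → Matrix n n k) (θ : Fin r → R), Pcs Ω π θ := by
  classical
  let K := FractionRing R
  let L := AlgebraicClosure K
  have : CharZero K := charZero_of_injective_algebraMap (algebraMap k K).injective
  have : Algebra.FormallyEtale R K := .of_isLocalization (nonZeroDivisors R)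
  have : Algebra.FormallyEtale K L := .of_isSeparable K L
  have : Algebra.FormallyEtale R L := .comp R K L
  have hinj : Function.Injective (algebraMap R L) :=
    (algebraMap K L).injective.comp (IsFractionRing.injective R K)
  have : Algebra.IsAlgebraic R L := (IsFractionRing.comap_isAlgebraic_iff (K := K)).2 inferInstance
  choose D' hD' using fun i => der_ext L (D i)
  let f : Matrix n n R →+* Matrix n n L := (algebraMap R L).mapMatrix
  have hf : Function.Injective f := Matrix.map_injective hinj
  have hfc : ∀ A : Matrix n n k, f (cm R A) = cm L A := fun A => by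
    ext i j; exact (IsScalarTower.algebraMap_apply k R L _).symm
  have hΩ' : ∀ i, Commute (f Ω) ((f Ω).map (D' i)) := fun i => by
    have h1 : (f Ω).map (D' i) = f (Ω.map (D i)) := by ext a b; exact hD' i _
    rw [h1]; exact (hΩ i).map f
  obtain ⟨s, p, hp, hnil⟩ := spec_proj (f Ω)
  have hconst : ∀ θ : s, ∃ A : Matrix n n k, cm L A = aeval (f Ω) (p θ) := by
    intro θ
    have h1 : ∀ i, (aeval (f Ω) (p θ)).map (D' i) = 0 := fun i =>
      der_idem _ (hp.idem θ) (comm_aeval (comm_der_aeval _ (hΩ' i) _).symm _).symm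
    have h2 : ∀ a b, ∃ c : k, algebraMap k L c = aeval (f Ω) (p θ) a b := fun a b =>
      const_alg hD hinj D' hD' (Algebra.IsAlgebraic.isAlgebraic _)
        fun i => congrFun (congrFun (h1 i) a) b
    choose c hc using h2
    exact ⟨Matrix.of c, by ext a b; exact hc a b⟩
  choose A hA using hconst
  have hAc : CompleteOrthogonalIdempotents A := by
    rw [← CompleteOrthogonalIdempotents.map_injective_iff ((algebraMap k L).mapMatrix (m := n))
      (Matrix.map_injective (algebraMap k L).injective)]
    have : (⇑((algebraMap k L).mapMatrix (m := n)) ∘ A) = fun θ => aeval (f Ω) (p θ) :=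
      funext hA
    rwa [this]
  have hb : Blk A (f Ω) (fun θ : s => θ.1) :=
    ⟨fun θ => by rw [hA]; exact comm_aeval (Commute.refl _) _, fun θ => by rw [hA]; exact hnil θ⟩
  let Γ := {θ : s // A θ ≠ 0}
  let θ : Γ → R := fun γ => algebraMap k R (A γ.1).trace⁻¹ * (Ω * cm R (A γ.1)).trace
  have hθ : ∀ γ : Γ, algebraMap R L (θ γ) = γ.1.1 := fun γ => by
    have h1 : algebraMap R L (Ω * cm R (A γ.1)).trace = (f Ω * cm L (A γ.1)).trace := by
      rw [← hfc, ← map_mul]
      exact AddMonoidHom.map_trace (algebraMap R L) _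
    simp only [θ]
    rw [map_mul, h1, hb.trace, ← IsScalarTower.algebraMap_apply, mul_left_comm, ← map_mul,
      inv_mul_cancel₀ (trace_ne_zero (hAc.idem _) γ.2), map_one, mul_one]
  have hP : Pcs Ω (fun γ : Γ => A γ.1) θ :=
    { comm := fun γ => hf (by rw [map_mul, map_mul, hfc]; exact (hb.comm γ.1).eq)
      nil := fun γ => by
        rw [← IsNilpotent.map_iff hf, map_mul, map_sub, hfc]
        have h1 : f (scalar n (θ γ)) = scalar n γ.1.1 := by
          rw [← hθ]; exact map_scalar _ _
        rw [h1]; exact hb.nil γ.1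
      coi := coi_sub hAc
      ne := fun γ => γ.2
      inj := fun a b e => Subtype.ext (Subtype.ext (by rw [← hθ, e, hθ])) }
  let e := (Fintype.equivFin Γ).symm
  exact ⟨_, fun i => A (e i).1, fun i => θ (e i),
    { comm := fun i => hP.comm (e i)
      nil := fun i => hP.nil (e i)
      coi := (CompleteOrthogonalIdempotents.equiv e).2 hP.coi
      ne := fun i => hP.ne (e i)
      inj := hP.inj.comp e.injective }⟩

/-- Euler derivation of a power series ring. -/
noncomputable def eul (A : Type*) [CommRing A] [Algebra k A] {σ : Type*} (i : σ) :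
    Derivation k (MvPowerSeries σ A) (MvPowerSeries σ A) :=
  (MvPowerSeries.X i : MvPowerSeries σ A) • (MvPowerSeries.pderiv A i).restrictScalars k

theorem coeff_eul {A : Type*} [CommRing A] [Algebra k A] {σ : Type*} (i : σ)
    (f : MvPowerSeries σ A) (d : σ →₀ ℕ) :
    MvPowerSeries.coeff d (eul (k := k) A i f) = (d i : A) * MvPowerSeries.coeff d f := by
  classical
  change MvPowerSeries.coeff d (MvPowerSeries.X i * MvPowerSeries.pderiv A i f) = _
  rw [MvPowerSeries.X_def, MvPowerSeries.coeff_monomial_mul]
  split_ifs with h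
  · rw [one_mul, MvPowerSeries.coeff_pderiv, tsub_add_cancel_of_le h, mul_comm]
    congr 1
    have h1 : 1 ≤ d i := by simpa using h
    rw [Finsupp.tsub_apply, Finsupp.single_eq_same, ← Nat.cast_succ]
    congr 1
    omega
  · have h1 : d i = 0 := by simpa using h
    rw [h1, Nat.cast_zero, zero_mul]

/-- The Euler derivations of `k[[x]]` have only `k` as constants. -/
theorem const_eul [CharZero k] (σ : Type*) : Const (fun i : σ => eul (k := k) k i) := by
  classical
  obtain ⟨_, _⟩ := exists_wellFoundedGT σ
  have key : ∀ a b : MvPowerSeries σ k, a ≠ 0 → b ≠ 0 →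
      (∀ i, b * eul (k := k) k i a = a * eul (k := k) k i b) →
      a.lexOrder = b.lexOrder := by
    intro a b ha hb h
    obtain ⟨p, hp⟩ := MvPowerSeries.exists_finsupp_eq_lexOrder_of_ne_zero ha
    obtain ⟨q, hq⟩ := MvPowerSeries.exists_finsupp_eq_lexOrder_of_ne_zero hb
    have aux : ∀ (i : σ) (u v : MvPowerSeries σ k) (p q : σ →₀ ℕ), u.lexOrder = toLex p →
        v.lexOrder = toLex q → MvPowerSeries.coeff (p + q) (u * eul (k := k) k i v) =
          MvPowerSeries.coeff p u * ((q i : k) * MvPowerSeries.coeff q v) := by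
      intro i u v p q hp hq
      rw [MvPowerSeries.coeff_mul, Finset.sum_eq_single_of_mem ⟨p, q⟩ (by simp), coeff_eul]
      rintro ⟨x, y⟩ h h'
      replace h : x + y = p + q := by simpa using h
      rcases trichotomy_of_add_eq_add (congrArg toLex h) with h'' | h'' | h''
      · exact False.elim (h' (by simp [h''.1, h''.2]))
      · rw [MvPowerSeries.coeff_eq_zero_of_lt_lexOrder (d := x), zero_mul]
        rw [hp]
        norm_cast
      · rw [coeff_eul, MvPowerSeries.coeff_eq_zero_of_lt_lexOrder (d := y), mul_zero, mul_zero]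
        rw [hq]
        norm_cast
    have hpq : p = q := by
      ext i
      have h1 := congrArg (MvPowerSeries.coeff (p + q)) (h i)
      rw [aux i a b p q hp hq, add_comm, aux i b a q p hq hp] at h1
      have h2 := MvPowerSeries.coeff_ne_zero_of_lexOrder hp.symm
      have h3 := MvPowerSeries.coeff_ne_zero_of_lexOrder hq.symm
      have h4 : (p i : k) = q i := by
        refine mul_left_cancel₀ (mul_ne_zero h2 h3) ?_
        linear_combination h1
      exact_mod_cast h4
    rw [hp, hq, hpq]
  intro a b hb h
  obtain ⟨q, hq⟩ := MvPowerSeries.exists_finsupp_eq_lexOrder_of_ne_zero hb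
  have h3 := MvPowerSeries.coeff_ne_zero_of_lexOrder hq.symm
  refine ⟨MvPowerSeries.coeff q a / MvPowerSeries.coeff q b, ?_⟩
  by_contra hne
  have h4 := key (a - (MvPowerSeries.coeff q a / MvPowerSeries.coeff q b) • b) b
    (sub_ne_zero.2 hne) hb fun i => by
      rw [map_sub, Derivation.map_smul, mul_sub, sub_mul, h i, mul_smul_comm, smul_mul_assoc]
  refine MvPowerSeries.coeff_ne_zero_of_lexOrder (hq.symm.trans h4.symm) ?_
  rw [map_sub, map_smul, smul_eq_mul, div_mul_cancel₀ _ h3, sub_self]

end Vale.Agent.P287Q.Alg
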