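import Mathlib

/-!
# Pieces of a matrix of formal series

`Pcs Ω π θ`: the constant idempotents `π γ` cut `Ω` into blocks `θ γ + nilpotent`, with distinct
`θ γ`.
-/

open Matrix

namespace Vale.Agent.P287Q.Alg

variable {k : Type*} [Field k] {n : Type*} [Fintype n] [DecidableEq n]

/-- A constant matrix seen over `R`. -/
abbrev cm (R : Type*) [CommRing R] [Algebra k R] (A : Matrix n n k) : Matrix n n R :=
  A.map (algebraMap k R)

variable {R : Type*} [CommRing R] [Algebra k R]

theorem cm_eq (A : Matrix n n k) : cm R A = (algebraMap k R).mapMatrix A := rfl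

theorem cm_mul (A B : Matrix n n k) : cm R (A * B) = cm R A * cm R B := by
  simp only [cm_eq, map_mul]

theorem cm_one : cm R (1 : Matrix n n k) = 1 := by simp only [cm_eq, map_one]

theorem cm_zero : cm R (0 : Matrix n n k) = 0 := by simp only [cm_eq, map_zero]

theorem cm_sum {ι : Type*} (s : Finset ι) (A : ι → Matrix n n k) :
    cm R (∑ i ∈ s, A i) = ∑ i ∈ s, cm R (A i) := by simp only [cm_eq, map_sum]

omit [Fintype n] [DecidableEq n] in
theorem cm_inj [Nontrivial R] {A B : Matrix n n k} (h : cm R A = cm R B) : A = B :=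
  Matrix.map_injective (algebraMap k R).injective h

omit [DecidableEq n] in
theorem cm_trace (A : Matrix n n k) : (cm R A).trace = algebraMap k R A.trace := by
  simp [Matrix.trace, map_sum]

omit [Fintype n] [DecidableEq n] in
theorem cm_map {S : Type*} [CommRing S] [Algebra k S] (σ : R →ₐ[k] S) (A : Matrix n n k) :
    (cm R A).map σ = cm S A := by
  ext i j; simp

/-- `X` is the scalar `c γ` up to a nilpotent on each constant block `π γ`. -/
structure Blk {Γ : Type*} (π : Γ → Matrix n n k) (X : Matrix n n R) (c : Γ → R) : Prop where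
  comm : ∀ γ, Commute X (cm R (π γ))
  nil : ∀ γ, IsNilpotent ((X - scalar n (c γ)) * cm R (π γ))

/-- The pieces of `Ω`. -/
structure Pcs {Γ : Type*} [Fintype Γ] (Ω : Matrix n n R) (π : Γ → Matrix n n k) (θ : Γ → R) :
    Prop extends Blk π Ω θ where
  coi : CompleteOrthogonalIdempotents π
  ne : ∀ γ, π γ ≠ 0
  inj : Function.Injective θ

theorem trace_ne_zero [CharZero k] {e : Matrix n n k} (he : IsIdempotentElem e) (h : e ≠ 0) :
    e.trace ≠ 0 := by
  intro h0
  apply h
  have h1 : IsIdempotentElem (Matrix.toLin' e) := by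
    change Matrix.toLin' e * Matrix.toLin' e = Matrix.toLin' e
    rw [Module.End.mul_eq_comp, ← Matrix.toLin'_mul, he.eq]
  have h2 := (LinearMap.IsIdempotentElem.trace_eq_zero_iff h1).1 (by simpa using h0)
  simpa using h2

theorem scalar_comm (c : R) (X : Matrix n n R) : Commute (scalar n c) X :=
  Matrix.scalar_commute c (fun _ => Commute.all _ _) X

theorem scalar_mul' (c : R) (X : Matrix n n R) : scalar n c * X = c • X := by
  ext i j; simp

theorem map_scalar {S : Type*} [CommRing S] (f : R →+* S) (c : R) :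
    (scalar n c).map f = scalar n (f c) := by
  ext i j
  by_cases h : i = j <;> simp [h]

/-- Sylvester: `A Y - Y B = c Y` with `A`, `B` nilpotent forces `Y = 0`. -/
theorem sylv [IsDomain R] {A B Y : Matrix n n R} {c : R} (hc : c ≠ 0) (hA : IsNilpotent A)
    (hB : IsNilpotent B) (h : A * Y - Y * B = c • Y) : Y = 0 := by
  have hL : IsNilpotent (LinearMap.mulLeft R A) := by rwa [LinearMap.isNilpotent_mulLeft_iff]
  have hR : IsNilpotent (LinearMap.mulRight R B) := by rwa [LinearMap.isNilpotent_mulRight_iff]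
  obtain ⟨m, hm⟩ := (LinearMap.commute_mulLeft_right A B).isNilpotent_sub hL hR
  have key : ∀ j : ℕ, ((LinearMap.mulLeft R A - LinearMap.mulRight R B) ^ j) Y = c ^ j • Y := by
    intro j
    induction j with
    | zero => simp
    | succ j ih =>
      rw [pow_succ', Module.End.mul_apply, ih, map_smul, LinearMap.sub_apply,
        LinearMap.mulLeft_apply, LinearMap.mulRight_apply, h, smul_smul, pow_succ]
  have h2 := key m
  rw [hm, LinearMap.zero_apply] at h2
  ext i j
  have h3 := congrFun (congrFun h2 i) j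
  simp only [Matrix.zero_apply, Matrix.smul_apply, smul_eq_mul] at h3
  exact (mul_eq_zero.1 h3.symm).resolve_left (pow_ne_zero m hc)

/-- A nonzero constant idempotent times a scalar is nilpotent only for the scalar `0`. -/
theorem eq_zero_of_nil [CharZero k] [IsDomain R] {e : Matrix n n k} (he : IsIdempotentElem e)
    (h : e ≠ 0) {c : R} (hc : IsNilpotent (c • cm R e)) : c = 0 := by
  have h1 := (Matrix.isNilpotent_trace_of_isNilpotent hc).eq_zero
  rw [Matrix.trace_smul, cm_trace, smul_eq_mul] at h1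
  refine (mul_eq_zero.1 h1).resolve_right ?_
  rw [map_eq_zero_iff _ (algebraMap k R).injective]
  exact trace_ne_zero he h

namespace Blk

variable {Γ : Type*} {π : Γ → Matrix n n k} {X Y : Matrix n n R} {c d : Γ → R}

theorem comm' (h : Blk π X c) (a : R) (γ : Γ) : Commute (X - scalar n a) (cm R (π γ)) :=
  (h.comm γ).sub_left (scalar_comm _ _)

theorem scal (π : Γ → Matrix n n k) (a : R) : Blk π (scalar n a) (fun _ => a) :=
  ⟨fun _ => scalar_comm _ _, fun _ => by simp⟩

theorem one (π : Γ → Matrix n n k) : Blk π (1 : Matrix n n R) (fun _ => 1) := by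
  simpa using scal π (1 : R)

theorem nil_comm (hX : Blk π X c) (hY : Blk π Y d) (h : Commute X Y) (γ : Γ) :
    Commute ((X - scalar n (c γ)) * cm R (π γ)) ((Y - scalar n (d γ)) * cm R (π γ)) := by
  have h1 : Commute (X - scalar n (c γ)) (Y - scalar n (d γ)) :=
    (h.sub_left (scalar_comm _ _)).sub_right (scalar_comm _ _).symm
  exact (h1.mul_right (hX.comm' _ γ)).mul_left
    ((hY.comm' _ γ).symm.mul_right (Commute.refl _))

theorem add (hX : Blk π X c) (hY : Blk π Y d) (h : Commute X Y) :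
    Blk π (X + Y) (fun γ => c γ + d γ) := by
  refine ⟨fun γ => (hX.comm γ).add_left (hY.comm γ), fun γ => ?_⟩
  have h1 := (hX.nil_comm hY h γ).isNilpotent_add (hX.nil γ) (hY.nil γ)
  have h2 : (X + Y - scalar n (c γ + d γ)) * cm R (π γ) =
      (X - scalar n (c γ)) * cm R (π γ) + (Y - scalar n (d γ)) * cm R (π γ) := by
    rw [map_add]; noncomm_ring
  rwa [h2]

theorem mul (hX : Blk π X c) (hY : Blk π Y d) (h : Commute X Y) :
    Blk π (X * Y) (fun γ => c γ * d γ) := by
  refine ⟨fun γ => (hX.comm γ).mul_left (hY.comm γ), fun γ => ?_⟩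
  have hXY : Commute X ((Y - scalar n (d γ)) * cm R (π γ)) :=
    (h.sub_right (scalar_comm _ _).symm).mul_right (hX.comm γ)
  have h1 : IsNilpotent (X * ((Y - scalar n (d γ)) * cm R (π γ))) :=
    hXY.isNilpotent_mul_left (hY.nil γ)
  have h2 : IsNilpotent (scalar n (d γ) * ((X - scalar n (c γ)) * cm R (π γ))) :=
    (scalar_comm _ _).isNilpotent_mul_left (hX.nil γ)
  have hXX : Commute X ((X - scalar n (c γ)) * cm R (π γ)) :=
    ((Commute.refl X).sub_right (scalar_comm _ _).symm).mul_right (hX.comm γ)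
  have h3 : Commute (X * ((Y - scalar n (d γ)) * cm R (π γ)))
      (scalar n (d γ) * ((X - scalar n (c γ)) * cm R (π γ))) :=
    (scalar_comm _ _).symm.mul_right (hXX.mul_left (hX.nil_comm hY h γ).symm)
  have h4 : (X * Y - scalar n (c γ * d γ)) * cm R (π γ) =
      X * ((Y - scalar n (d γ)) * cm R (π γ)) +
        scalar n (d γ) * ((X - scalar n (c γ)) * cm R (π γ)) := by
    rw [mul_comm (c γ), map_mul, ← mul_assoc, ← mul_assoc, mul_sub, mul_sub,
      (scalar_comm (d γ) X).eq]
    noncomm_ring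
  rw [h4]
  exact h3.isNilpotent_add h1 h2

theorem smul (hX : Blk π X c) (a : R) : Blk π (a • X) (fun γ => a * c γ) := by
  have := (scal π a).mul hX (scalar_comm _ _)
  rwa [scalar_mul'] at this

theorem sub (hX : Blk π X c) (hY : Blk π Y d) (h : Commute X Y) :
    Blk π (X - Y) (fun γ => c γ - d γ) := by
  have h1 := hX.add (hY.smul (-1)) (h.smul_right _)
  simpa [sub_eq_add_neg] using h1

theorem map {S : Type*} [CommRing S] [Algebra k S] (σ : R →ₐ[k] S) (hX : Blk π X c) :
    Blk π (X.map σ) (fun γ => σ (c γ)) := by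
  refine ⟨fun γ => ?_, fun γ => ?_⟩
  · have := (hX.comm γ).map (σ : R →+* S).mapMatrix
    simp only [RingHom.mapMatrix_apply] at this
    rw [← cm_map σ]
    exact this
  · have := (hX.nil γ).map (σ : R →+* S).mapMatrix
    rw [map_mul, map_sub] at this
    simp only [RingHom.mapMatrix_apply, map_scalar] at this
    rw [← cm_map σ]
    exact this

/-- The scalar of a nonzero block is unique. -/
theorem uniq [CharZero k] [IsDomain R] (hX : Blk π X c) (hY : Blk π X d) {γ : Γ}
    (he : IsIdempotentElem (π γ)) (h : π γ ≠ 0) : c γ = d γ := by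
  have h1 := (hX.sub hY (Commute.refl _)).nil γ
  rw [sub_self, zero_sub, neg_mul, scalar_mul', ← neg_smul] at h1
  have := eq_zero_of_nil he h h1
  rwa [neg_eq_zero, sub_eq_zero] at this

/-- Trace on a block. -/
theorem trace [IsDomain R] (hX : Blk π X c) (γ : Γ) :
    (X * cm R (π γ)).trace = c γ * algebraMap k R (π γ).trace := by
  have h1 := (Matrix.isNilpotent_trace_of_isNilpotent (hX.nil γ)).eq_zero
  rw [sub_mul, Matrix.trace_sub, scalar_mul', Matrix.trace_smul, cm_trace, sub_eq_zero] at h1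
  exact h1

/-- If `X Y = Z` with `X`, `Z` block-scalar and `X` invertible then `Y` is block-scalar. -/
theorem inv [CharZero k] [IsDomain R] (hX : Blk π X c) {X' : Matrix n n R} (h1 : X * X' = 1)
    (hπ : ∀ γ, IsIdempotentElem (π γ)) (hne : ∀ γ, π γ ≠ 0) :
    ∃ c' : Γ → R, (∀ γ, c γ * c' γ = 1) ∧ Blk π X' c' := by
  have h2 : X' * X = 1 := mul_eq_one_comm.1 h1
  have hc : ∀ γ, Commute X' (cm R (π γ)) := fun γ => by
    have := (hX.comm γ).eq
    change X' * cm R (π γ) = cm R (π γ) * X'
    calc X' * cm R (π γ) = X' * (cm R (π γ) * X) * X' := by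
          rw [mul_assoc, mul_assoc, h1, mul_one]
      _ = cm R (π γ) * X' := by rw [← this, ← mul_assoc, h2, one_mul]
  have hXX : Commute X X' := by rw [Commute, SemiconjBy, h1, h2]
  refine ⟨fun γ => algebraMap k R (π γ).trace⁻¹ * (X' * cm R (π γ)).trace, fun γ => ?_, ?_⟩
  · have h3 : IsNilpotent (X' * ((X - scalar n (c γ)) * cm R (π γ))) :=
      ((hXX.symm.sub_right (scalar_comm _ _).symm).mul_right (hc γ)).isNilpotent_mul_left
        (hX.nil γ)
    have h4 := (Matrix.isNilpotent_trace_of_isNilpotent h3).eq_zero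
    rw [← mul_assoc, mul_sub, h2, ← (scalar_comm (c γ) X').eq, sub_mul, one_mul, mul_assoc,
      scalar_mul', Matrix.trace_sub, Matrix.trace_smul, cm_trace, sub_eq_zero, smul_eq_mul] at h4
    rw [mul_left_comm, ← h4, ← map_mul, inv_mul_cancel₀ (trace_ne_zero (hπ γ) (hne γ)), map_one]
  · refine ⟨hc, fun γ => ?_⟩
    set a := algebraMap k R (π γ).trace⁻¹ * (X' * cm R (π γ)).trace with ha
    have hca : c γ * a = 1 := by
      have h3 : IsNilpotent (X' * ((X - scalar n (c γ)) * cm R (π γ))) :=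
        ((hXX.symm.sub_right (scalar_comm _ _).symm).mul_right (hc γ)).isNilpotent_mul_left
          (hX.nil γ)
      have h4 := (Matrix.isNilpotent_trace_of_isNilpotent h3).eq_zero
      rw [← mul_assoc, mul_sub, h2, ← (scalar_comm (c γ) X').eq, sub_mul, one_mul, mul_assoc,
        scalar_mul', Matrix.trace_sub, Matrix.trace_smul, cm_trace, sub_eq_zero, smul_eq_mul] at h4
      rw [ha, mul_left_comm, ← h4, ← map_mul, inv_mul_cancel₀ (trace_ne_zero (hπ γ) (hne γ)),
        map_one]
    have h3 : IsNilpotent ((-a) • (X' * ((X - scalar n (c γ)) * cm R (π γ)))) :=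
      (((hXX.symm.sub_right (scalar_comm _ _).symm).mul_right (hc γ)).isNilpotent_mul_left
        (hX.nil γ)).smul _
    have h4 : (-a) • (X' * ((X - scalar n (c γ)) * cm R (π γ))) =
        (X' - scalar n a) * cm R (π γ) := by
      rw [← mul_assoc, mul_sub, h2, ← (scalar_comm (c γ) X').eq, scalar_mul', ← smul_mul_assoc,
        smul_sub, smul_smul, neg_mul, mul_comm a, hca, neg_smul, neg_smul, one_smul,
        ← scalar_mul', mul_one]
      congr 1
      abel
    rwa [h4] at h3

end Blk

namespace Pcs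

variable {Γ : Type*} [Fintype Γ] {Ω : Matrix n n R} {π : Γ → Matrix n n k} {θ : Γ → R}

theorem cm_coi (h : CompleteOrthogonalIdempotents π) :
    CompleteOrthogonalIdempotents (fun γ => cm R (π γ)) :=
  CompleteOrthogonalIdempotents.map ((algebraMap k R).mapMatrix (m := n)) h

/-- Whatever commutes with `Ω` preserves its pieces. -/
theorem comm_of_comm [IsDomain R] (h : Pcs Ω π θ) {X : Matrix n n R} (hX : Commute Ω X) (γ : Γ) :
    Commute X (cm R (π γ)) := by
  have hc := cm_coi (R := R) h.coi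
  have key : ∀ γ δ, γ ≠ δ → cm R (π γ) * X * cm R (π δ) = 0 := by
    intro γ δ hne
    refine sylv (c := θ δ - θ γ) (sub_ne_zero.2 fun e => hne (h.inj e).symm) (h.nil γ) (h.nil δ) ?_
    have e1 : cm R (π γ) * cm R (π γ) = cm R (π γ) := (hc.idem γ).eq
    have e2 : cm R (π δ) * cm R (π δ) = cm R (π δ) := (hc.idem δ).eq
    have e3 : (Ω - scalar n (θ γ)) * cm R (π γ) * (cm R (π γ) * X * cm R (π δ)) =
        cm R (π γ) * (Ω * X) * cm R (π δ) - θ γ • (cm R (π γ) * X * cm R (π δ)) := by
      rw [← scalar_mul', mul_assoc (Ω - _), ← mul_assoc (cm R (π γ)), ← mul_assoc (cm R (π γ)), e1,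
        sub_mul, ← mul_assoc Ω, ← mul_assoc Ω, (h.comm γ).eq, mul_assoc _ Ω]
    have e4 : cm R (π γ) * X * cm R (π δ) * ((Ω - scalar n (θ δ)) * cm R (π δ)) =
        cm R (π γ) * (Ω * X) * cm R (π δ) - θ δ • (cm R (π γ) * X * cm R (π δ)) := by
      rw [(h.toBlk.comm' _ δ).eq, mul_assoc (cm R (π γ) * X), ← mul_assoc (cm R (π δ)), e2,
        ← (h.toBlk.comm' _ δ).eq, sub_mul, mul_sub, scalar_mul', mul_smul_comm, hX.eq]
      simp only [mul_assoc]
    rw [e3, e4, sub_smul]
    abel
  classical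
  have a1 : X * cm R (π γ) = cm R (π γ) * X * cm R (π γ) := by
    conv_lhs => rw [← one_mul X, ← hc.complete, Finset.sum_mul, Finset.sum_mul]
    exact Finset.sum_eq_single γ (fun δ _ hδ => key δ γ hδ) (by simp)
  have a2 : cm R (π γ) * X = cm R (π γ) * X * cm R (π γ) := by
    conv_lhs => rw [← mul_one (_ * X), ← hc.complete, Finset.mul_sum]
    exact Finset.sum_eq_single γ (fun δ _ hδ => key γ δ hδ.symm) (by simp)
  exact a1.trans a2.symm

/-- Two blocks with different scalars are orthogonal. -/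
theorem mul_eq_zero [CharZero k] [IsDomain R] (h : Pcs Ω π θ) {Δ : Type*} {ρ : Δ → Matrix n n k}
    {η : Δ → R} (h' : Blk ρ Ω η) {δ : Δ} (hδ : IsIdempotentElem (ρ δ)) {γ : Γ}
    (hne : θ γ ≠ η δ) : π γ * ρ δ = 0 := by
  have hc : Commute (cm R (ρ δ)) (cm R (π γ)) := h.comm_of_comm (h'.comm δ) γ
  have hc0 : Commute (π γ) (ρ δ) := by
    apply cm_inj (R := R)
    rw [cm_mul, cm_mul, hc.eq]
  by_contra h0
  have hid : IsIdempotentElem (π γ * ρ δ) := (h.coi.idem γ).mul_of_commute hc0 hδ
  have n1 : IsNilpotent ((Ω - scalar n (θ γ)) * cm R (π γ) * cm R (ρ δ)) :=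
    ((h'.comm' _ δ).mul_left hc.symm).isNilpotent_mul_right (h.nil γ)
  have n2 : IsNilpotent ((Ω - scalar n (η δ)) * cm R (ρ δ) * cm R (π γ)) :=
    ((h.toBlk.comm' _ γ).mul_left hc).isNilpotent_mul_right (h'.nil δ)
  have b1 : Blk (fun _ : Unit => π γ * ρ δ) Ω (fun _ => θ γ) :=
    ⟨fun _ => by rw [cm_mul]; exact (h.comm γ).mul_right (h'.comm δ),
      fun _ => by rw [cm_mul, ← mul_assoc]; exact n1⟩
  have b2 : Blk (fun _ : Unit => π γ * ρ δ) Ω (fun _ => η δ) :=
    ⟨b1.comm, fun _ => by rw [hc0.eq, cm_mul, ← mul_assoc]; exact n2⟩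
  exact hne (b1.uniq b2 (γ := ()) hid h0)

/-- Pieces are unique. -/
theorem uniq [CharZero k] [IsDomain R] (h : Pcs Ω π θ) {Δ : Type*} [Fintype Δ]
    {ρ : Δ → Matrix n n k} {η : Δ → R} (h' : Pcs Ω ρ η) :
    ∃ e : Γ ≃ Δ, ∀ γ, ρ (e γ) = π γ ∧ η (e γ) = θ γ := by
  classical
  have ex : ∀ γ, ∃ δ, η δ = θ γ ∧ ρ δ = π γ := by
    intro γ
    have h1 : ∃ δ, θ γ = η δ := by
      by_contra hn
      push Not at hn
      apply h.ne γ
      rw [← mul_one (π γ), ← h'.coi.complete, Finset.mul_sum]
      exact Finset.sum_eq_zero fun δ _ => h.mul_eq_zero h'.toBlk (h'.coi.idem δ) (hn δ)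
    obtain ⟨δ, hδ⟩ := h1
    refine ⟨δ, hδ.symm, ?_⟩
    have a1 : π γ = π γ * ρ δ := by
      conv_lhs => rw [← mul_one (π γ), ← h'.coi.complete, Finset.mul_sum]
      refine Finset.sum_eq_single δ (fun δ' _ hne => ?_) (by simp)
      exact h.mul_eq_zero h'.toBlk (h'.coi.idem δ') fun e => hne (h'.inj (e.symm.trans hδ))
    have a2 : ρ δ = π γ * ρ δ := by
      conv_lhs => rw [← one_mul (ρ δ), ← h.coi.complete, Finset.sum_mul]
      refine Finset.sum_eq_single γ (fun γ' _ hne => ?_) (by simp)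
      exact h.mul_eq_zero h'.toBlk (h'.coi.idem δ) fun e => hne (h.inj (e.trans hδ.symm))
    exact a2.trans a1.symm
  choose f hf using ex
  have hi : Function.Injective f := fun a b e => h.inj (by rw [← (hf a).1, e, (hf b).1])
  have hs : Function.Surjective f := by
    intro δ
    by_contra hn
    push Not at hn
    apply h'.ne δ
    rw [← one_mul (ρ δ), ← h.coi.complete, Finset.sum_mul]
    refine Finset.sum_eq_zero fun γ _ => h.mul_eq_zero h'.toBlk (h'.coi.idem δ) fun e => ?_
    exact hn γ (h'.inj ((hf γ).1.trans e))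
  exact ⟨Equiv.ofBijective f ⟨hi, hs⟩, fun γ => ⟨(hf γ).2, (hf γ).1⟩⟩

/-- A specialisation that keeps the scalars apart keeps the pieces. -/
theorem map {S : Type*} [CommRing S] [Algebra k S] (σ : R →ₐ[k] S) (h : Pcs Ω π θ)
    (hσ : Function.Injective fun γ => σ (θ γ)) : Pcs (Ω.map σ) π (fun γ => σ (θ γ)) :=
  { h.toBlk.map σ with coi := h.coi, ne := h.ne, inj := hσ }

end Pcs

end Vale.Agent.P287Q.Alg
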