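import Mathlib

/-!
# The squarefree part of a split polynomial is integral

`Cic ι`: `O` is completely integrally closed in `O'`.  This passes to power series rings.  A monic
polynomial over `O` that splits over `O'` has its squarefree part over `O`; conjugate roots have
the same multiplicity.
-/

open Polynomial

namespace Vale.Agent.P287Q.Alg

/-- `O` is completely integrally closed in `O'`. -/
def Cic {O O' : Type*} [CommRing O] [CommRing O'] (ι : O →+* O') : Prop :=
  ∀ (f : O') (c : O), c ≠ 0 → (∀ m : ℕ, ι c * f ^ m ∈ ι.range) → f ∈ ι.range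

theorem cic_frac (A K : Type*) [CommRing A] [IsDomain A] [IsNoetherianRing A]
    [IsIntegrallyClosed A] [Field K] [Algebra A K] [IsFractionRing A K] :
    Cic (algebraMap A K) := by
  intro f c hc h
  let N : Submodule A K := Submodule.span A (Set.range fun m : ℕ => algebraMap A K c * f ^ m)
  have hle : N ≤ Submodule.span A {1} := by
    rw [Submodule.span_le]
    rintro _ ⟨m, rfl⟩
    obtain ⟨a, ha⟩ := h m
    exact Submodule.mem_span_singleton.2 ⟨a, by rw [Algebra.smul_def, mul_one, ha]⟩
  have hfg : N.FG := (Submodule.fg_span_singleton 1).of_le hle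
  have hne : N ≠ ⊥ := by
    intro h0
    have h1 : algebraMap A K c * f ^ 0 ∈ N := Submodule.subset_span ⟨0, rfl⟩
    rw [h0, Submodule.mem_bot, pow_zero, mul_one,
      map_eq_zero_iff _ (IsFractionRing.injective A K)] at h1
    exact hc h1
  have hint : IsIntegral A f := by
    refine isIntegral_of_smul_mem_submodule N hne hfg f fun x hx => ?_
    induction hx using Submodule.span_induction with
    | mem x hx =>
      obtain ⟨m, rfl⟩ := hx
      exact Submodule.subset_span ⟨m + 1, by simp only [smul_eq_mul]; ring⟩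
    | zero => simp
    | add x y _ _ hx hy => rw [smul_add]; exact N.add_mem hx hy
    | smul a x _ hx => rw [smul_comm]; exact N.smul_mem a hx
  exact IsIntegrallyClosed.isIntegral_iff.1 hint

theorem Cic.of_comp {O O' O'' : Type*} [CommRing O] [CommRing O'] [CommRing O''] {ι : O →+* O'}
    {g : O' →+* O''} (hg : Function.Injective g) (h : Cic (g.comp ι)) : Cic ι := by
  intro f c hc hf
  obtain ⟨a, ha⟩ := h (g f) c hc fun m => by
    obtain ⟨a, ha⟩ := hf m
    exact ⟨a, by rw [RingHom.comp_apply, ha, map_mul, map_pow, RingHom.comp_apply]⟩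
  exact ⟨a, hg ha⟩

theorem mem_range_mv {A A' σ : Type*} [CommRing A] [CommRing A'] (ι : A →+* A')
    (f : MvPowerSeries σ A') :
    f ∈ (MvPowerSeries.map (σ := σ) ι).range ↔ ∀ d, MvPowerSeries.coeff d f ∈ ι.range := by
  refine ⟨fun ⟨g, hg⟩ d => ⟨MvPowerSeries.coeff d g, by rw [← hg, MvPowerSeries.coeff_map]⟩,
    fun h => ?_⟩
  choose g hg using h
  exact ⟨g, by ext d; exact hg d⟩

theorem map_mv_inj {A A' σ : Type*} [CommRing A] [CommRing A'] {ι : A →+* A'}
    (hι : Function.Injective ι) : Function.Injective (MvPowerSeries.map (σ := σ) ι) := by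
  intro f g h
  ext d
  apply hι
  rw [← MvPowerSeries.coeff_map, h, MvPowerSeries.coeff_map]

/-- Complete integral closedness passes to power series. -/
theorem cic_mv {A A' : Type*} [CommRing A] [CommRing A'] [IsDomain A'] {ι : A →+* A'}
    (hι : Function.Injective ι) (h : Cic ι) (σ : Type*) :
    Cic (MvPowerSeries.map (σ := σ) ι) := by
  classical
  obtain ⟨_, _⟩ := exists_wellFoundedGT σ
  intro f c hc hf
  let f0 : MvPowerSeries σ A' := fun d =>
    if MvPowerSeries.coeff d f ∈ ι.range then MvPowerSeries.coeff d f else 0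
  have hf0 : ∀ d, MvPowerSeries.coeff d f0 =
      if MvPowerSeries.coeff d f ∈ ι.range then MvPowerSeries.coeff d f else 0 := fun _ => rfl
  have h0 : f0 ∈ (MvPowerSeries.map (σ := σ) ι).range := by
    rw [mem_range_mv]
    intro d
    rw [hf0]
    split_ifs with hd
    · exact hd
    · exact zero_mem _
  by_cases h1 : f - f0 = 0
  · rw [sub_eq_zero.1 h1]; exact h0
  exfalso
  obtain ⟨p, hp⟩ := MvPowerSeries.exists_finsupp_eq_lexOrder_of_ne_zero h1
  have hp0 := MvPowerSeries.coeff_ne_zero_of_lexOrder hp.symm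
  have hp1 : MvPowerSeries.coeff p (f - f0) ∉ ι.range := by
    rw [map_sub, hf0] at hp0 ⊢
    split_ifs at hp0 ⊢ with hd
    · simp at hp0
    · rwa [sub_zero]
  have hc' : MvPowerSeries.map (σ := σ) ι c ≠ 0 := by
    rwa [ne_eq, map_eq_zero_iff _ (map_mv_inj hι)]
  obtain ⟨q, hq⟩ := MvPowerSeries.exists_finsupp_eq_lexOrder_of_ne_zero hc'
  have hq0 := MvPowerSeries.coeff_ne_zero_of_lexOrder hq.symm
  have key : ∀ m : ℕ, ∃ r : σ →₀ ℕ,
      (MvPowerSeries.map (σ := σ) ι c * (f - f0) ^ m).lexOrder = toLex r ∧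
      MvPowerSeries.coeff r (MvPowerSeries.map (σ := σ) ι c * (f - f0) ^ m) =
        ι (MvPowerSeries.coeff q c) * MvPowerSeries.coeff p (f - f0) ^ m := by
    intro m
    induction m with
    | zero => exact ⟨q, by simpa using hq, by simp⟩
    | succ m ih =>
      obtain ⟨r, h2, h3⟩ := ih
      refine ⟨r + p, ?_, ?_⟩
      · rw [pow_succ, ← mul_assoc, MvPowerSeries.lexOrder_mul, h2, hp]; rfl
      · rw [pow_succ, ← mul_assoc, MvPowerSeries.coeff_mul_of_add_lexOrder h2 hp, h3, pow_succ,
          mul_assoc]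
  refine hp1 (h _ (MvPowerSeries.coeff q c) ?_ fun m => ?_)
  · rw [MvPowerSeries.coeff_map] at hq0
    exact fun e => hq0 (by rw [e, map_zero])
  · obtain ⟨r, -, h3⟩ := key m
    rw [← h3]
    refine (mem_range_mv ι _).1 ?_ r
    rw [sub_eq_add_neg, add_pow, Finset.mul_sum]
    refine sum_mem fun i _ => ?_
    rw [← mul_assoc, ← mul_assoc]
    exact mul_mem (mul_mem (hf i) (pow_mem (neg_mem h0) _)) (natCast_mem _ _)

variable {O O' : Type*} [CommRing O] [CommRing O'] {ι : O →+* O'}

theorem Cic.of_integral [IsDomain O] (h : Cic ι) {f : O'} (hf : ι.IsIntegralElem f) {b : O}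
    (hb : b ≠ 0) (hbf : ι b * f ∈ ι.range) : f ∈ ι.range := by
  obtain ⟨p, hp, hpf⟩ := hf
  refine h f (b ^ p.natDegree) (pow_ne_zero _ hb) fun m => ?_
  have h1 : f ^ m = eval₂ ι f (X ^ m %ₘ p) := by
    conv_lhs => rw [← eval₂_X_pow ι f, ← modByMonic_add_div (X ^ m) p, eval₂_add, eval₂_mul, hpf,
      zero_mul, add_zero]
  have h2 : (X ^ m %ₘ p).natDegree < p.natDegree + 1 :=
    Nat.lt_succ_of_le (natDegree_modByMonic_le _ hp)
  rw [h1, eval₂_eq_sum_range' ι h2, Finset.mul_sum]
  refine sum_mem fun i hi => ?_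
  obtain ⟨j, hj⟩ := Nat.exists_eq_add_of_le (Nat.lt_succ_iff.1 (Finset.mem_range.1 hi))
  have h3 : ι (b ^ p.natDegree) * (ι ((X ^ m %ₘ p).coeff i) * f ^ i) =
      ι (b ^ j * (X ^ m %ₘ p).coeff i) * (ι b * f) ^ i := by
    rw [hj, pow_add, map_mul, map_mul, map_pow, map_pow]; ring
  rw [h3]
  exact mul_mem ⟨_, rfl⟩ (pow_mem hbf _)

theorem sqf_field {K K' : Type*} [Field K] [CharZero K] [Field K'] [DecidableEq K']
    (φ : K →+* K') {P : K[X]} (hP : P.Monic) {t : Multiset K'}
    (hPs : P.map φ = (t.map fun θ => X - C θ).prod) :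
    ∃ y : K[X], y.map φ = ∏ θ ∈ t.toFinset, (X - C θ) := by
  obtain ⟨y0, m, hy1, hy2, hy3⟩ := exists_squarefree_dvd_pow_of_ne_zero hP.ne_zero
  have hy0 : y0 ≠ 0 := hy1.ne_zero
  let y := y0 * C y0.leadingCoeff⁻¹
  have hym : y.Monic := monic_mul_leadingCoeff_inv hy0
  have hya : Associated y0 y :=
    associated_mul_unit_right _ _ (isUnit_C.2 (inv_ne_zero (leadingCoeff_ne_zero.2 hy0)).isUnit)
  have hsep : (y.map φ).Separable :=
    (PerfectField.separable_iff_squarefree.2 (hya.squarefree_iff.1 hy1)).map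
  have hd1 : y.map φ ∣ (t.map fun θ => X - C θ).prod :=
    hPs ▸ Polynomial.map_dvd φ (hya.symm.dvd.trans hy2)
  have hd2 : (t.map fun θ => X - C θ).prod ∣ (y.map φ) ^ m := by
    rw [← hPs, ← Polynomial.map_pow]
    exact Polynomial.map_dvd φ (hy3.trans (pow_dvd_pow_of_dvd hya.dvd m))
  have hne : (t.map fun θ => X - C θ).prod ≠ 0 := by
    rw [← hPs]; exact (hP.map φ).ne_zero
  have hspl : (y.map φ).Splits := by
    refine Splits.of_dvd ?_ hne hd1
    exact Splits.multisetProd fun f hf => by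
      obtain ⟨θ, -, rfl⟩ := Multiset.mem_map.1 hf
      exact Splits.X_sub_C θ
  have hroots : (y.map φ).roots = t.toFinset.val := by
    refine (Multiset.Nodup.ext (nodup_roots hsep) t.toFinset.nodup).2 fun x => ?_
    have hx : x ∈ t.toFinset.val ↔ x ∈ t := by simp
    rw [hx, ← roots_multiset_prod_X_sub_C t, mem_roots hne, mem_roots (hym.map φ).ne_zero]
    refine ⟨fun hx => hx.dvd hd1, fun hx => ?_⟩
    have h1 := hx.dvd hd2
    rw [IsRoot, eval_pow] at h1
    exact eq_zero_of_pow_eq_zero h1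
  exact ⟨y, by rw [hspl.eq_prod_roots_of_monic (hym.map φ), hroots]; rfl⟩

theorem sqf_aux (K K' : Type*) [Field K] [CharZero K] [Field K'] [Algebra O K]
    [IsFractionRing O K] (j : O' →+* K') (hj : Function.Injective j) [IsDomain O]
    (hι : Function.Injective ι) (h : Cic ι) {P : O[X]}
    (hP : P.Monic) {s : Multiset O'} (hs : P.map ι = (s.map fun θ => X - C θ).prod)
    [DecidableEq O'] : ∃ S : O[X], S.Monic ∧ S.map ι = ∏ θ ∈ s.toFinset, (X - C θ) := by
  classical
  have hji : Function.Injective (j.comp ι) := hj.comp hι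
  obtain ⟨φ, h2⟩ : ∃ φ : K →+* K', ∀ x, j (ι x) = φ (algebraMap O K x) :=
    ⟨IsFractionRing.lift hji, fun x => (IsFractionRing.lift_algebraMap hji x).symm⟩
  have hφ : φ.comp (algebraMap O K) = j.comp ι := RingHom.ext fun x => (h2 x).symm
  have hPs : (P.map (algebraMap O K)).map φ = ((s.map j).map fun θ => X - C θ).prod := by
    rw [Polynomial.map_map, hφ, ← Polynomial.map_map, hs, Polynomial.map_multiset_prod,
      Multiset.map_map, Multiset.map_map]
    simp
  obtain ⟨y, hy⟩ := sqf_field φ (hP.map _) hPs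
  have hS : (∏ θ ∈ s.toFinset, (X - C θ : O'[X])).map j = y.map φ := by
    rw [hy, Multiset.toFinset_map, Finset.prod_image hj.injOn, Polynomial.map_prod]
    simp
  have hmon : (∏ θ ∈ s.toFinset, (X - C θ : O'[X])).Monic := monic_prod_X_sub_C _ _
  have hint : ∀ i, ι.IsIntegralElem ((∏ θ ∈ s.toFinset, (X - C θ : O'[X])).coeff i) := by
    let := ι.toAlgebra
    have h1 : (∏ θ ∈ s.toFinset, (X - C θ : O'[X])) ∈
        liftsRing (algebraMap (integralClosure O O') O') := by
      refine prod_mem fun θ hθ => sub_mem (X_mem_lifts _) (C'_mem_lifts ⟨⟨θ, P, hP, ?_⟩, rfl⟩)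
      change eval₂ ι θ P = 0
      rw [eval₂_eq_eval_map, hs, eval_multiset_prod, Multiset.map_map]
      exact Multiset.prod_eq_zero (Multiset.mem_map.2 ⟨θ, Multiset.mem_toFinset.1 hθ, by simp⟩)
    intro i
    obtain ⟨a, ha⟩ := (lifts_iff_coeff_lifts _).1 h1 i
    rw [← ha]
    exact a.2
  have hl : (∏ θ ∈ s.toFinset, (X - C θ : O'[X])) ∈ lifts ι := by
    rw [lifts_iff_coeff_lifts]
    intro i
    obtain ⟨a, b, hb, hab⟩ := IsFractionRing.div_surjective O (y.coeff i)
    have hb0 : b ≠ 0 := nonZeroDivisors.ne_zero hb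
    refine h.of_integral (hint i) hb0 ⟨a, hj ?_⟩
    have h1 := congrArg (fun q => coeff q i) hS
    simp only [coeff_map] at h1
    rw [map_mul, h1, h2, h2, ← map_mul, ← hab, mul_div_cancel₀]
    rwa [ne_eq, map_eq_zero_iff _ (IsFractionRing.injective O K)]
  obtain ⟨S, h1, -, h2⟩ := lifts_and_natDegree_eq_and_monic hl hmon
  exact ⟨S, h2, h1⟩

/-- The squarefree part of a monic polynomial over `O` that splits over `O'` is over `O`. -/
theorem sqf [IsDomain O'] [CharZero O'] (hι : Function.Injective ι) (h : Cic ι) {P : O[X]}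
    (hP : P.Monic) {s : Multiset O'} (hs : P.map ι = (s.map fun θ => X - C θ).prod)
    [DecidableEq O'] : ∃ S : O[X], S.Monic ∧ S.map ι = ∏ θ ∈ s.toFinset, (X - C θ) := by
  have : IsDomain O := hι.isDomain ι
  have : CharZero O := ι.charZero
  exact sqf_aux (FractionRing O) (FractionRing O') (algebraMap O' _)
    (IsFractionRing.injective O' _) hι h hP hs

theorem sum_mem_of_map [DecidableEq O'] [Nontrivial O'] {S : O[X]} {t : Finset O'}
    (hS : S.map ι = ∏ θ ∈ t, (X - C θ)) : ∑ θ ∈ t, θ ∈ ι.range := by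
  rcases t.eq_empty_or_nonempty with rfl | ht
  · simp
  have h1 := prod_X_sub_C_coeff_card_pred t (fun θ => θ) (Finset.card_pos.2 ht)
  rw [← hS, coeff_map] at h1
  exact ⟨-S.coeff (t.card - 1), by rw [map_neg, h1, neg_neg]⟩

/-- The roots of multiplicity more than `m` have their sum in `O`. -/
theorem sum_lt_count [IsDomain O'] [CharZero O'] (hι : Function.Injective ι) (h : Cic ι)
    [DecidableEq O'] (m : ℕ) : ∀ {P : O[X]} (_ : P.Monic) {s : Multiset O'}
      (_ : P.map ι = (s.map fun θ => X - C θ).prod),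
      ∑ θ ∈ s.toFinset with m < s.count θ, θ ∈ ι.range := by
  induction m with
  | zero =>
    intro P hP s hs
    obtain ⟨S, -, hS⟩ := sqf hι h hP hs
    rw [Finset.filter_true_of_mem fun θ hθ =>
      Multiset.count_pos.2 (Multiset.mem_toFinset.1 hθ)]
    exact sum_mem_of_map hS
  | succ m ih =>
    intro P hP s hs
    obtain ⟨S, hSm, hS⟩ := sqf hι h hP hs
    have hsp : (s.map fun θ => (X - C θ : O'[X])).prod =
        S.map ι * ((s - s.dedup).map fun θ => X - C θ).prod := by
      rw [hS, Finset.prod_eq_multiset_prod, Multiset.toFinset_val, ← Multiset.prod_add,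
        ← Multiset.map_add, add_tsub_cancel_of_le s.dedup_le]
    have hdvd : S ∣ P := by
      rw [← map_dvd_map ι hι hSm, hs, hsp]
      exact dvd_mul_right _ _
    obtain ⟨Q, rfl⟩ := hdvd
    have hQ : Q.map ι = ((s - s.dedup).map fun θ => X - C θ).prod := by
      rw [Polynomial.map_mul, hsp] at hs
      exact mul_left_cancel₀ (hSm.map ι).ne_zero hs
    have h1 := ih (hSm.of_mul_monic_left hP) hQ
    have h2 : ((s - s.dedup).toFinset.filter fun θ => m < (s - s.dedup).count θ) =
        s.toFinset.filter fun θ => m + 1 < s.count θ := by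
      ext θ
      simp only [Finset.mem_filter, Multiset.mem_toFinset, ← Multiset.count_pos,
        Multiset.count_sub, Multiset.count_dedup]
      split_ifs with hθ
      · omega
      · omega
    rwa [h2] at h1

/-- A root outside `O` has a conjugate of the same multiplicity. -/
theorem conj_mult [IsDomain O'] [CharZero O'] (hι : Function.Injective ι) (h : Cic ι)
    [DecidableEq O'] {P : O[X]} (hP : P.Monic) {s : Multiset O'}
    (hs : P.map ι = (s.map fun θ => X - C θ).prod) {u : O'} (hu : u ∈ s) (hu' : u ∉ ι.range) :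
    ∃ v ∈ s, v ≠ u ∧ v ∉ ι.range ∧ s.count v = s.count u := by
  by_contra hn
  push Not at hn
  obtain ⟨m, hm⟩ := Nat.exists_eq_add_one_of_ne_zero (Multiset.count_pos.2 hu).ne'
  have h1 := sub_mem (sum_lt_count hι h m hP hs) (sum_lt_count hι h (m + 1) hP hs)
  have h2 : (s.toFinset.filter fun θ => m < s.count θ) =
      (s.toFinset.filter fun θ => m + 1 < s.count θ) ∪
        (s.toFinset.filter fun θ => s.count θ = m + 1) := by
    ext θ
    simp only [Finset.mem_filter, Finset.mem_union, ← and_or_left]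
    exact and_congr_right fun _ => by omega
  rw [h2, Finset.sum_union (Finset.disjoint_filter.2 fun θ _ _ => by omega), add_sub_cancel_left,
    ← Finset.add_sum_erase _ _ (a := u) (by simp [hu, hm])] at h1
  refine hu' ?_
  have h3 : ∑ θ ∈ (s.toFinset.filter fun θ => s.count θ = m + 1).erase u, θ ∈ ι.range := by
    refine sum_mem fun v hv => ?_
    simp only [Finset.mem_erase, Finset.mem_filter, Multiset.mem_toFinset] at hv
    by_contra hv'
    exact hn v hv.2.1 hv.1 hv' (hv.2.2.trans hm.symm)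
  simpa using sub_mem h1 h3

end Vale.Agent.P287Q.Alg
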