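import Vale.Agent.P287Q.Alg.Sqf

/-!
# The two counting theorems, on the level of roots
-/

open Polynomial

namespace Vale.Agent.P287Q.Alg

variable {O O' : Type*} [CommRing O] [CommRing O'] [IsDomain O'] {ι : O →+* O'}

theorem th_dvd (hι : Function.Injective ι) (h : Cic ι) {c : O'} {t n : O}
    (hq : c ^ 2 - ι t * c + ι n = 0) (hc : c ∉ ι.range) {P : O[X]} (hr : (P.map ι).IsRoot c) :
    (X ^ 2 - C t * X + C n : O[X]) ∣ P := by
  have : IsDomain O := hι.isDomain ι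
  have hm : (X ^ 2 - C t * X + C n : O[X]).Monic := by monicity!
  have hd : (X ^ 2 - C t * X + C n : O[X]).natDegree = 2 := by compute_degree!
  have hG : eval₂ ι c (X ^ 2 - C t * X + C n : O[X]) = 0 := by
    simpa [eval₂_add, eval₂_sub, eval₂_mul, eval₂_pow] using hq
  rw [← modByMonic_eq_zero_iff_dvd hm]
  have h1 : (P %ₘ (X ^ 2 - C t * X + C n)).natDegree ≤ 1 := by
    have := natDegree_modByMonic_lt P hm (fun e => by rw [e] at hd; simp at hd)
    omega
  have h2 := eq_X_add_C_of_natDegree_le_one h1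
  have h3 : eval₂ ι c (P %ₘ (X ^ 2 - C t * X + C n)) = 0 := by
    have e := congrArg (eval₂ ι c) (modByMonic_add_div P (X ^ 2 - C t * X + C n))
    rw [eval₂_add, eval₂_mul, hG, zero_mul, add_zero] at e
    rw [e, ← eval_map]
    exact hr
  rw [h2, eval₂_add, eval₂_mul, eval₂_C, eval₂_X, eval₂_C] at h3
  by_cases h4 : (P %ₘ (X ^ 2 - C t * X + C n)).coeff 1 = 0
  · rw [h4, map_zero, zero_mul, zero_add, map_eq_zero_iff _ hι] at h3
    rw [h2, h4, h3]
    simp
  · exact (hc (h.of_integral ⟨_, hm, hG⟩ h4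
      ⟨-_, (map_neg _ _).trans (eq_neg_of_add_eq_zero_left h3).symm⟩)).elim

/-- The two roots of an irreducible quadratic have the same multiplicity. -/
theorem conj2 (hι : Function.Injective ι) (h : Cic ι) {a : O'} {t n : O}
    (hq : a ^ 2 - ι t * a + ι n = 0) (ha : a ∉ ι.range) (P : O[X]) :
    rootMultiplicity a (P.map ι) = rootMultiplicity (ι t - a) (P.map ι) := by
  have : IsDomain O := hι.isDomain ι
  have hb : ι t - a ∉ ι.range := fun hb => ha (by
    simpa using ι.range.sub_mem (show ι t ∈ ι.range from ⟨t, rfl⟩) hb)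
  have hq' : (ι t - a) ^ 2 - ι t * (ι t - a) + ι n = 0 := by linear_combination hq
  have hG : (X ^ 2 - C t * X + C n : O[X]).map ι = (X - C a) * (X - C (ι t - a)) := by
    have e : ι n = a * (ι t - a) := by linear_combination hq
    simp only [Polynomial.map_add, Polynomial.map_sub, Polynomial.map_mul, Polynomial.map_pow,
      map_X, map_C, e, map_mul, map_sub]
    ring
  have hd : (X ^ 2 - C t * X + C n : O[X]).natDegree = 2 := by compute_degree!
  induction hN : P.natDegree using Nat.strong_induction_on generalizing P with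
  | _ N ih =>
  by_cases hP : P = 0
  · simp [hP]
  by_cases hv : (X ^ 2 - C t * X + C n : O[X]) ∣ P
  · obtain ⟨Q, rfl⟩ := hv
    have hQ : Q ≠ 0 := right_ne_zero_of_mul hP
    have h1 := natDegree_mul (left_ne_zero_of_mul hP) hQ
    have h2 := ih Q.natDegree (by omega) Q rfl
    have h3 : Q.map ι ≠ 0 := (Polynomial.map_ne_zero_iff hι).2 hQ
    have h4 : (X - C a) * (X - C (ι t - a)) ≠ 0 := mul_ne_zero (X_sub_C_ne_zero _) (X_sub_C_ne_zero _)
    classical
    rw [Polynomial.map_mul, hG, rootMultiplicity_mul (mul_ne_zero h4 h3),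
      rootMultiplicity_mul (mul_ne_zero h4 h3), rootMultiplicity_mul h4, rootMultiplicity_mul h4,
      h2, rootMultiplicity_X_sub_C_self, rootMultiplicity_X_sub_C_self, rootMultiplicity_X_sub_C,
      rootMultiplicity_X_sub_C]
    by_cases e : a = ι t - a
    · rw [if_pos e, if_pos e.symm]
    · rw [if_neg e, if_neg (Ne.symm e)]
  · rw [rootMultiplicity_eq_zero fun hr => hv (th_dvd hι h hq ha hr),
      rootMultiplicity_eq_zero fun hr => hv (th_dvd hι h hq' hb hr)]

/-- `s` is the multiset of roots of a monic polynomial over `O`. -/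
def Rts (ι : O →+* O') (s : Multiset O') : Prop :=
  ∃ P : O[X], P.Monic ∧ P.map ι = (s.map fun θ => X - C θ).prod

omit [IsDomain O'] in
theorem Rts.map {s : Multiset O'} (hs : Rts ι s) {k : O' →+* O'}
    (hk : ∀ x ∈ ι.range, k x ∈ ι.range) : Rts ι (s.map k) := by
  obtain ⟨P, hP, e⟩ := hs
  have h1 : (P.map ι).map k ∈ lifts ι := by
    rw [lifts_iff_coeff_lifts]
    intro i
    rw [coeff_map, coeff_map]
    exact hk _ ⟨_, rfl⟩
  obtain ⟨Q, a, -, b⟩ := lifts_and_natDegree_eq_and_monic h1 ((hP.map ι).map k)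
  refine ⟨Q, b, ?_⟩
  rw [a, e, Polynomial.map_multiset_prod, Multiset.map_map, Multiset.map_map]
  simp

theorem Rts.count2 [DecidableEq O'] (hι : Function.Injective ι) (h : Cic ι) {s : Multiset O'}
    (hs : Rts ι s) {a : O'} {t n : O} (hq : a ^ 2 - ι t * a + ι n = 0) (ha : a ∉ ι.range) :
    s.count a = s.count (ι t - a) := by
  obtain ⟨P, -, e⟩ := hs
  have := conj2 hι h hq ha P
  rwa [e, ← count_roots, ← count_roots, roots_multiset_prod_X_sub_C] at this

theorem Rts.sqf [CharZero O'] [DecidableEq O'] (hι : Function.Injective ι) (h : Cic ι)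
    {s : Multiset O'} (hs : Rts ι s) : Rts ι s.dedup := by
  obtain ⟨P, hP, e⟩ := hs
  exact Alg.sqf hι h hP e

theorem Rts.conj [CharZero O'] [DecidableEq O'] (hι : Function.Injective ι) (h : Cic ι)
    {s : Multiset O'} (hs : Rts ι s) {u : O'} (hu : u ∈ s) (hu' : u ∉ ι.range) :
    ∃ v ∈ s, v ≠ u ∧ v ∉ ι.range ∧ s.count v = s.count u := by
  obtain ⟨P, hP, e⟩ := hs
  exact conj_mult hι h hP e hu hu'

/-- The count for a blow-up, for multisets of roots. -/
theorem thB_ms [CharZero O'] [DecidableEq O'] (hι : Function.Injective ι) (h : Cic ι) {K : Type*}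
    (cc : O' → K) {s₁ s₂ : Multiset O'} {θ : O'} {g : ℕ}
    (hs : Rts ι (s₁ + s₂ + Multiset.replicate g θ)) (hc : s₂.card = s₁.card + g) {r₁ r₂ r₃ : K}
    (h12 : r₁ ≠ r₂) (h13 : r₁ ≠ r₃) (h23 : r₂ ≠ r₃) (c₁ : ∀ x ∈ s₁, cc x = r₁)
    (c₂ : ∀ x ∈ s₂, cc x = r₂) (c₃ : cc θ = r₃) {k₀ k₁ : O' →+* O'}
    (hk₀ : ∀ x ∈ ι.range, k₀ x ∈ ι.range) (hk₁ : ∀ x ∈ ι.range, k₁ x ∈ ι.range)
    (cc₀ : ∀ x, cc (k₀ x) = cc x) (cc₁ : ∀ x, cc (k₁ x) = cc x) (hk : ∀ x, k₁ (k₀ x) = k₁ x)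
    {a : O'} {t n : O} (hq : a ^ 2 - ι t * a + ι n = 0) (ha : a ∉ ι.range) (ca : cc a = r₁)
    (cb : cc (ι t - a) = r₂) (h₁ : ∀ x ∈ s₁, k₀ x = a) (ha₁ : k₁ a ∈ ι.range)
    (hθ : g ≠ 0 → k₁ θ ∉ ι.range) :
    s₂.dedup.card ≤ s₁.dedup.card + if g = 0 then 0 else 1 := by
  set b := ι t - a with hb
  have hb₁ : k₁ b ∈ ι.range := by
    rw [hb, map_sub]
    exact ι.range.sub_mem (hk₁ _ ⟨t, rfl⟩) ha₁
  -- the count at the first specialisation
  have key : ∀ u₁ u₂ u₃ : Multiset O', Rts ι (u₁ + u₂ + u₃) → (∀ x ∈ u₁, x ∈ s₁) →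
      (∀ x ∈ u₂, x ∈ s₂) → (∀ x ∈ u₃, x = θ) → (u₂.filter fun x => k₀ x = b).card = u₁.card := by
    intro u₁ u₂ u₃ hu m₁ m₂ m₃
    have e := (hu.map hk₀).count2 hι h hq ha
    rw [← hb] at e
    simp only [Multiset.map_add, Multiset.count_add] at e
    have z : ∀ (u : Multiset O') (y : O'), (∀ x ∈ u, cc x ≠ cc y) → (u.map k₀).count y = 0 :=
      fun u y hy => Multiset.count_eq_zero.2 fun hm => by
        obtain ⟨x, hx, rfl⟩ := Multiset.mem_map.1 hm
        exact hy x hx (cc₀ x).symm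
    rw [z u₂ a fun x hx => by rw [c₂ x (m₂ x hx), ca]; exact h12.symm,
      z u₃ a fun x hx => by rw [m₃ x hx, c₃, ca]; exact h13.symm,
      z u₁ b fun x hx => by rw [c₁ x (m₁ x hx), cb]; exact h12,
      z u₃ b fun x hx => by rw [m₃ x hx, c₃, cb]; exact h23.symm,
      (Multiset.count_eq_card (a := a)).2 fun x hx => by
        obtain ⟨y, hy, rfl⟩ := Multiset.mem_map.1 hx
        exact (h₁ y (m₁ y hy)).symm, Multiset.card_map, Multiset.count_map] at e
    simp only [add_zero, zero_add] at e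
    rw [e]
    exact congrArg Multiset.card (Multiset.filter_congr fun x _ => eq_comm)
  have d₁ : Disjoint s₁ s₂ := Multiset.disjoint_left.2 fun a b => h12 ((c₁ _ a).symm.trans (c₂ _ b))
  have d₂ : Disjoint (s₁ + s₂) (Multiset.replicate g θ) := Multiset.disjoint_left.2 fun a b => by
    rw [Multiset.eq_of_mem_replicate b] at a
    rcases Multiset.mem_add.1 a with a | a
    exacts [h13 ((c₁ _ a).symm.trans c₃), h23 ((c₂ _ a).symm.trans c₃)]
  have hS := hs.sqf hι h
  rw [Multiset.Disjoint.dedup_add d₂, Multiset.Disjoint.dedup_add d₁] at hS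
  have k1 := key _ _ _ hs (fun _ a => a) (fun _ a => a) fun _ => Multiset.eq_of_mem_replicate
  have k2 := key _ _ _ hS (fun _ => Multiset.mem_dedup.1) (fun _ => Multiset.mem_dedup.1)
    fun _ a => Multiset.eq_of_mem_replicate (Multiset.mem_dedup.1 a)
  have p1 := congrArg Multiset.card (Multiset.filter_add_not (fun x => k₀ x = b) s₂)
  have p2 := congrArg Multiset.card (Multiset.filter_add_not (fun x => k₀ x = b) s₂.dedup)
  rw [Multiset.card_add] at p1 p2
  have q1 : (s₂.filter fun x => ¬k₀ x = b).card = g := by omega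
  have q2 : (s₂.dedup.filter fun x => ¬k₀ x = b).card ≤ (s₂.filter fun x => ¬k₀ x = b).card :=
    Multiset.card_le_card (Multiset.filter_le_filter _ (Multiset.dedup_le _))
  split_ifs with hg
  · omega
  -- the count at the second specialisation
  have key₁ : ∀ (u₁ u₂ : Multiset O') (m : ℕ), m ≠ 0 → Rts ι (u₁ + u₂ + Multiset.replicate m θ) →
      (∀ x ∈ u₁, x ∈ s₁) → (∀ x ∈ u₂, x ∈ s₂) →
      ∃ v, ((u₂.filter fun x => ¬k₀ x = b).filter fun x => v = k₁ x).card = m := by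
    intro u₁ u₂ m hm hu m₁ m₂
    obtain ⟨v, -, v2, v3, v4⟩ := (hu.map hk₁).conj hι h (u := k₁ θ) (Multiset.mem_map_of_mem _
      (Multiset.mem_add.2 (.inr (Multiset.mem_replicate.2 ⟨hm, rfl⟩)))) (hθ hg)
    refine ⟨v, ?_⟩
    simp only [Multiset.map_add, Multiset.count_add, Multiset.map_replicate] at v4
    have z : ∀ (u : Multiset O') (y : O'), (∀ x ∈ u, k₁ x ≠ y) → (u.map k₁).count y = 0 :=
      fun u y hy => Multiset.count_eq_zero.2 fun hm => by
        obtain ⟨x, hx, rfl⟩ := Multiset.mem_map.1 hm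
        exact hy x hx rfl
    rw [z u₁ v fun x hx e => v3 (by rw [← e, ← hk, h₁ x (m₁ x hx)]; exact ha₁),
      z u₁ _ fun x hx e => h13 (by rw [← c₁ x (m₁ x hx), ← c₃, ← cc₁, e, cc₁]),
      z u₂ (k₁ θ) fun x hx e => h23 (by rw [← c₂ x (m₂ x hx), ← c₃, ← cc₁, e, cc₁]),
      Multiset.count_replicate_self, Multiset.count_replicate, if_neg (Ne.symm v2),
      Multiset.count_map] at v4
    simp only [add_zero, zero_add] at v4
    rw [← v4, Multiset.filter_filter]
    refine congrArg Multiset.card (Multiset.filter_congr fun x _ => ⟨And.left, fun e => ⟨e, ?_⟩⟩)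
    exact fun e' => v3 (by rw [e, ← hk, e']; exact hb₁)
  obtain ⟨v, hv⟩ := key₁ _ _ g hg hs (fun _ a => a) fun _ a => a
  have hall : ∀ x ∈ s₂.filter fun x => ¬k₀ x = b, v = k₁ x := Multiset.filter_eq_self.1
    (Multiset.eq_of_le_of_card_le (Multiset.filter_le _ _) (q1.trans hv.symm).le)
  have e1 : (Multiset.replicate g θ).dedup = Multiset.replicate 1 θ := by
    rw [← Multiset.nsmul_singleton, Multiset.dedup_nsmul hg, Multiset.dedup_singleton]
    rfl
  rw [e1] at hS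
  obtain ⟨w, hw⟩ := key₁ _ _ 1 one_ne_zero hS (fun _ => Multiset.mem_dedup.1)
    fun _ => Multiset.mem_dedup.1
  obtain ⟨y, hy⟩ := Multiset.card_pos_iff_exists_mem.1 (hw ▸ one_pos :
    0 < ((s₂.dedup.filter fun x => ¬k₀ x = b).filter fun x => w = k₁ x).card)
  have sub : ∀ x ∈ s₂.dedup.filter fun x => ¬k₀ x = b, v = k₁ x := fun x hx => hall x
    (Multiset.mem_of_le (Multiset.filter_le_filter _ (Multiset.dedup_le _)) hx)
  have hwv : w = v := (Multiset.of_mem_filter hy).trans (sub y (Multiset.mem_of_mem_filter hy)).symm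
  rw [hwv, Multiset.filter_eq_self.2 sub] at hw
  omega

theorem th_mem {Γ α : Type*} [Fintype Γ] (θ : Γ → α) (m : Γ → ℕ) (y : α) :
    y ∈ ∑ x, Multiset.replicate (m x) (θ x) ↔ ∃ x, m x ≠ 0 ∧ y = θ x := by
  simp [Multiset.mem_sum, Multiset.mem_replicate]

omit [IsDomain O'] in
/-- The multiset with multiplicities `m`. -/
theorem th_prod {Γ : Type*} [Fintype Γ] (θ : Γ → O') (m : Γ → ℕ) :
    ((∑ x, Multiset.replicate (m x) (θ x)).map fun y => X - C y).prod =
      ∏ x, (X - C (θ x)) ^ m x := by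
  rw [← Multiset.coe_mapAddMonoidHom, map_sum, Multiset.prod_sum]
  simp

/-- **The count for a blow-up.** -/
theorem thB [CharZero O'] (hι : Function.Injective ι) (h : Cic ι) {K Γ₁ Γ₂ : Type*} [Fintype Γ₁]
    [Fintype Γ₂] (cc : O' → K) {P : O[X]} (hP : P.Monic) {θ₁ : Γ₁ → O'} {m₁ : Γ₁ → ℕ}
    {θ₂ : Γ₂ → O'} {m₂ : Γ₂ → ℕ} {θ₃ : O'} {g : ℕ}
    (hs : P.map ι = (∏ x, (X - C (θ₁ x)) ^ m₁ x) * (∏ x, (X - C (θ₂ x)) ^ m₂ x) * (X - C θ₃) ^ g)
    (inj : Function.Injective θ₂) (pos : ∀ x, m₂ x ≠ 0) (hc : ∑ x, m₂ x = ∑ x, m₁ x + g)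
    {r₁ r₂ r₃ : K} (h12 : r₁ ≠ r₂) (h13 : r₁ ≠ r₃) (h23 : r₂ ≠ r₃)
    (c₁ : ∀ x, m₁ x ≠ 0 → cc (θ₁ x) = r₁) (c₂ : ∀ x, cc (θ₂ x) = r₂) (c₃ : cc θ₃ = r₃)
    {k₀ k₁ : O' →+* O'} (hk₀ : ∀ x ∈ ι.range, k₀ x ∈ ι.range)
    (hk₁ : ∀ x ∈ ι.range, k₁ x ∈ ι.range) (cc₀ : ∀ x, cc (k₀ x) = cc x)
    (cc₁ : ∀ x, cc (k₁ x) = cc x) (hk : ∀ x, k₁ (k₀ x) = k₁ x) {a : O'} {t n : O}
    (hq : a ^ 2 - ι t * a + ι n = 0) (ha : a ∉ ι.range) (ca : cc a = r₁)
    (cb : cc (ι t - a) = r₂) (h₁ : ∀ x, m₁ x ≠ 0 → k₀ (θ₁ x) = a) (ha₁ : k₁ a ∈ ι.range)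
    (hθ : g ≠ 0 → k₁ θ₃ ∉ ι.range) :
    Fintype.card Γ₂ ≤ Fintype.card Γ₁ + if g = 0 then 0 else 1 := by
  classical
  have := thB_ms hι h cc (s₁ := ∑ x, Multiset.replicate (m₁ x) (θ₁ x))
    (s₂ := ∑ x, Multiset.replicate (m₂ x) (θ₂ x)) (θ := θ₃) (g := g)
    ⟨P, hP, by rw [hs, Multiset.map_add, Multiset.map_add, Multiset.prod_add, Multiset.prod_add,
      th_prod, th_prod, Multiset.map_replicate, Multiset.prod_replicate]⟩
    (by simpa [Multiset.card_sum] using hc) h12 h13 h23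
    (fun y hy => by obtain ⟨x, a, rfl⟩ := (th_mem _ _ _).1 hy; exact c₁ x a)
    (fun y hy => by obtain ⟨x, -, rfl⟩ := (th_mem _ _ _).1 hy; exact c₂ x) c₃ hk₀ hk₁ cc₀ cc₁ hk hq
    ha ca cb (fun y hy => by obtain ⟨x, a, rfl⟩ := (th_mem _ _ _).1 hy; exact h₁ x a) ha₁ hθ
  have e₂ : (∑ x, Multiset.replicate (m₂ x) (θ₂ x)).toFinset = Finset.univ.image θ₂ := by
    ext y
    rw [Multiset.mem_toFinset, th_mem]
    simp only [Finset.mem_image, Finset.mem_univ, true_and]
    exact ⟨fun ⟨x, _, e⟩ => ⟨x, e.symm⟩, fun ⟨x, e⟩ => ⟨x, pos x, e.symm⟩⟩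
  have e₁ : (∑ x, Multiset.replicate (m₁ x) (θ₁ x)).toFinset ⊆ Finset.univ.image θ₁ := by
    intro y
    rw [Multiset.mem_toFinset, th_mem]
    simp only [Finset.mem_image, Finset.mem_univ, true_and]
    exact fun ⟨x, _, e⟩ => ⟨x, e.symm⟩
  rw [← Multiset.card_toFinset, ← Multiset.card_toFinset, e₂,
    Finset.card_image_of_injective _ inj, Finset.card_univ] at this
  exact this.trans (Nat.add_le_add_right
    ((Finset.card_le_card e₁).trans (Finset.card_image_le.trans Finset.card_univ.le)) _)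

omit [IsDomain O'] in
theorem th_rm_map {K : Type*} [CommRing K] [IsDomain K] (cc : O' →+* K) {Q : O'[X]}
    (hQ : Q.map cc ≠ 0) (a : O') : rootMultiplicity a Q ≤ rootMultiplicity (cc a) (Q.map cc) := by
  rw [le_rootMultiplicity_iff hQ]
  simpa using Polynomial.map_dvd cc (pow_rootMultiplicity_dvd Q a)

theorem th_rank {k V Γ : Type*} [Field k] [AddCommGroup V] [Module k V] [FiniteDimensional k V]
    (π : Γ → Module.End k V) (S : Finset Γ) :
    Module.finrank k (LinearMap.range (∑ x ∈ S, π x)) ≤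
      ∑ x ∈ S, Module.finrank k (LinearMap.range (π x)) := by
  classical
  induction S using Finset.induction_on with
  | empty => rw [Finset.sum_empty, LinearMap.range_zero, finrank_bot, Finset.sum_empty]
  | insert x S hx ih =>
    rw [Finset.sum_insert hx, Finset.sum_insert hx]
    refine (Submodule.finrank_mono (LinearMap.range_add_le _ _)).trans
      ((Submodule.finrank_add_le_finrank_add_finrank _ _).trans (Nat.add_le_add_left ih _))

/-- **A pull-back is a union of pieces.** -/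
theorem thA (hι : Function.Injective ι) (h : Cic ι) {K k V Γ : Type*} [CommRing K] [IsDomain K]
    [Field k] [AddCommGroup V] [Module k V] [FiniteDimensional k V] [Fintype Γ]
    (cc : O' →+* K) {P : O[X]} (hP : P.Monic) {π : Γ → Module.End k V}
    (hπ : CompleteOrthogonalIdempotents π) {θ : Γ → O'}
    (hd : ∏ x, (X - C (θ x)) ^ Module.finrank k (LinearMap.range (π x)) ∣ P.map ι)
    {W : Submodule k V} {r : K}
    (hr : rootMultiplicity r ((P.map ι).map cc) ≤ Module.finrank k W) {b : O'} {t n : O}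
    (hq : b ^ 2 - ι t * b + ι n = 0) (hb : b ∉ ι.range) (cb : cc (ι t - b) = r)
    (hW : ∀ x, ∀ w ∈ W, π x w ≠ 0 → θ x = b) :
    ∃ S : Finset Γ, LinearMap.range (∑ x ∈ S, π x) = W := by
  classical
  refine ⟨Finset.univ.filter fun x => θ x = b, (Submodule.eq_of_le_of_finrank_le ?_ ?_).symm⟩
  · intro w hw
    refine ⟨w, ?_⟩
    have e := Finset.sum_filter_add_sum_filter_not Finset.univ (fun x => θ x = b) π
    have e' := congrArg (fun f : Module.End k V => f w) (e.trans hπ.complete)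
    simp only [LinearMap.add_apply, Module.End.one_apply] at e'
    rwa [LinearMap.sum_apply (Finset.univ.filter fun x => ¬θ x = b),
      Finset.sum_eq_zero (s := Finset.univ.filter fun x => ¬θ x = b) fun x hx =>
        by_contra fun c => (Finset.mem_filter.1 hx).2 (hW x w hw c), add_zero] at e'
  · refine (th_rank π _).trans (le_trans ?_ hr)
    have h0 : P.map ι ≠ 0 := (hP.map ι).ne_zero
    refine le_trans ?_ (cb ▸ th_rm_map cc ((hP.map ι).map cc).ne_zero (ι t - b))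
    rw [← conj2 hι h hq hb, le_rootMultiplicity_iff h0, ← Finset.prod_pow_eq_pow_sum]
    refine dvd_trans ?_ hd
    rw [Finset.prod_congr rfl fun x hx => by rw [← (Finset.mem_filter.1 hx).2]]
    exact Finset.prod_dvd_prod_of_subset _ _ _ (Finset.filter_subset _ _)

end Vale.Agent.P287Q.Alg
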